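import Vale.Agent.P284Z.C.Main
import Vale.Agent.P284Z.B.Main

/-! P284Z, block C: the unconditional statement. -/

namespace Vale.Agent.P284Z

theorem stC : StC := stC_of stB

end Vale.Agent.P284Z
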