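import Vale.Agent.P284Z.C.Prop

/-! P284Z, block C: invariant multiples of the vector fields and of the derived families. -/

open scoped Topology
open Filter Set Function Submodule

noncomputable section

namespace Vale.Agent.P284Z.Cb

open Vale.Agent.P272.K Vale.Agent.P284.H661.Lim

section alg
variable {K : Type} [Field K] {n : ℕ} (D : Der K n) (b : Fin n → K) {ι : Type} {ρ : ℕ}
  {w : Fin ρ → ι → K}

/-- a vector field as an additive map -/
def vfH : K →+ K := AddMonoidHom.mk' (D.vf b) fun f g => by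
  simp [Der.vf, mul_add, Finset.sum_add_distrib]

theorem vf_mul (f g : K) : D.vf b (f * g) = D.vf b f * g + f * D.vf b g := by
  simp only [Der.vf, D.mul, mul_add, Finset.sum_add_distrib, Finset.sum_mul, Finset.mul_sum]
  congr 1 <;> exact Finset.sum_congr rfl fun _ _ => by ring

theorem vf_span (h : ∀ t, (fun i => D.vf b (w t i)) ∈ span K (range w)) {x : ι → K}
    (hx : x ∈ span K (range w)) : (fun i => D.vf b (x i)) ∈ span K (range w) := by
  induction hx using span_induction with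
  | mem x hx => obtain ⟨t, rfl⟩ := hx; exact h t
  | zero =>
    rw [show (fun i => D.vf b ((0 : ι → K) i)) = 0 from funext fun _ => (vfH D b).map_zero]
    exact zero_mem _
  | add x y _ _ h1 h2 =>
    exact (funext fun i => ((vfH D b).map_add (x i) (y i)).symm : _ = fun i => D.vf b ((x + y) i)) ▸
      add_mem h1 h2
  | smul c x h1 h2 =>
    exact (funext fun i => (vf_mul D b c (x i)).symm : _ = fun i => D.vf b ((c • x) i)) ▸
      add_mem (Submodule.smul_mem _ (D.vf b c) h1) (Submodule.smul_mem _ c h2)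

theorem finOn_T (T : K →+* K) (hT : ∀ i f, T (D.d i f) = D.d i (T f)) {σ : ι → ι} {v : ι → K}
    (hv : ∀ i, T (v (σ i)) = v i) (hw : v ∈ span K (range w))
    (h : ∀ t, (fun i => D.vf b (w t i)) ∈ span K (range w)) : D.FinOn (fun i => T (b i)) v := by
  have h1 : ∀ k f, (D.vf fun i => T (b i))^[k] (T f) = T ((D.vf b)^[k] f) := fun k => by
    induction k with
    | zero => exact fun _ => rfl
    | succ k ih => exact fun f => by simp only [iterate_succ_apply', ih, Der.vf, map_sum, map_mul, hT]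
  have h2 : ∀ k, (fun i => (D.vf b)^[k] (v i)) ∈ span K (range w) := fun k => by
    induction k with
    | zero => exact hw
    | succ k ih => simpa only [iterate_succ_apply'] using vf_span D b h ih
  have := FiniteDimensional.span_of_finite K (finite_range fun t i => T (w t (σ i)))
  refine finiteDimensional_of_le (S₂ := span K (range fun t i => T (w t (σ i))))
    (span_le.2 (range_subset_iff.2 fun k => ?_))
  obtain ⟨c, hc⟩ := (mem_span_range_iff_exists_fun K).1 (h2 k)
  refine (mem_span_range_iff_exists_fun K).2 ⟨fun t => T (c t), funext fun i => ?_⟩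
  rw [← hv i, h1, ← congrFun hc (σ i)]
  simp

theorem cramer_prod {k : ℕ} {v : ι → K} (hw : v ∈ span K (range w)) (j : Fin (k + 1) → Fin ρ → ι)
    (i : ι) : v i * ∏ u, (Matrix.of fun t t' => w t (j u t')).det = ∑ s, v (j 0 s) *
      ∏ u, (Matrix.of fun t t' => w t (update j 0 (update (j 0) s i) u t')).det := by
  obtain ⟨c, rfl⟩ := (mem_span_range_iff_exists_fun K).1 hw
  simp only [Fin.prod_univ_succ, update_self, update_of_ne (Fin.succ_ne_zero _), ← mul_assoc,
    Finset.sum_apply, Pi.smul_apply, smul_eq_mul]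
  rw [cramer_rel, Finset.sum_mul]

end alg

variable {n : ℕ} {Γ E : Type} [Group Γ] [TopologicalSpace E] [MulAction Γ E] {C : Cov n Γ E}
  {P : Pol C} [ConnectedSpace E] {h0 : ∃ b, NZ P b} {φ ψ δ : K h0} {J : IX Γ}
  {u u' : J.ι → K h0} {b : Fin n → K h0}

/-- invariant elements with poles along `s` -/
def IK (φ : K h0) : Prop := ∃ c, IP P c ∧ Rp φ c

/-- equivariant families with poles along `s` -/
def GK (u : J.ι → K h0) : Prop := ∃ w, GF P w ∧ ∀ i, Rp (u i) (w i)

theorem IK.mul (h : IK φ) (h' : IK ψ) : IK (φ * ψ) :=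
  h.elim fun _ h => h'.elim fun _ h' => ⟨_, h.1.mul h'.1, h.2.mul h'.2⟩

theorem IK.prod {κ : Type} (s : Finset κ) {φ : κ → K h0} (h : ∀ k, IK (φ k)) :
    IK (∏ k ∈ s, φ k) :=
  Finset.prod_induction _ _ (fun _ _ => IK.mul) ⟨_, .const 1, .one⟩ fun k _ => h k

theorem IK.vf (hb : ∀ j, IK (δ * b j)) (h : IK φ) : IK (δ * (DK h0).vf b φ) := by
  choose c h1 h2 using hb
  obtain ⟨f, h3, h4⟩ := h
  refine ⟨_, .sum Finset.univ fun j => (h1 j).mul (h3.dx j), ?_⟩
  simpa only [Der.vf, Finset.mul_sum, ← mul_assoc] using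
    Rp.sum Finset.univ fun j => (h2 j).mul (h4.d j)

theorem GK.add (h : GK u) (h' : GK u') : GK fun i => u i + u' i :=
  h.elim fun _ h => h'.elim fun _ h' => ⟨_, h.1.add h'.1, fun i => (h.2 i).add (h'.2 i)⟩

theorem GK.smul (h : IK φ) (h' : GK u) : GK fun i => φ * u i :=
  h.elim fun _ h => h'.elim fun _ h' => ⟨_, h'.1.smul h.1, fun i => h.2.mul (h'.2 i)⟩

theorem GK.vf (hb : ∀ j, IK (δ * b j)) (h : GK u) : GK fun i => δ * (DK h0).vf b (u i) := by
  choose c h1 h2 using hb
  obtain ⟨f, h3, h4⟩ := h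
  refine ⟨_, .sum Finset.univ fun j => (h3.dx j).smul (h1 j), fun i => ?_⟩
  simpa only [Der.vf, Finset.mul_sum, ← mul_assoc] using
    Rp.sum Finset.univ fun j => (h2 j).mul ((h4 i).d j)

theorem exists_del {κ : Type} [Fintype κ] {B : κ → K h0} (h : ∀ g k, TK h0 g (B k) = B k) :
    ∃ δ : K h0, δ ≠ 0 ∧ IK δ ∧ ∀ k, IK (δ * B k) := by
  classical
  choose δ δ' β h1 h2 h3 h4 h5 using fun k => exists_den fun g => h g k
  refine ⟨∏ k, δ k, Finset.prod_ne_zero_iff.2 fun k _ => h1 k,
    .prod _ fun k => ⟨_, h2 k, h4 k⟩, fun k => ?_⟩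
  rw [← Finset.prod_erase_mul _ _ (Finset.mem_univ k), mul_assoc]
  exact .mul (.prod _ fun k => ⟨_, h2 k, h4 k⟩) ⟨_, h3 k, h5 k⟩

theorem exists_W {κ : Type} {b : κ → Fin n → K h0} (hδ : δ ≠ 0) (h1 : IK δ)
    (hb : ∀ l j, IK (δ * b l j)) (h : GK u) (S : List κ) : ∃ c : K h0, c ≠ 0 ∧ IK c ∧
      GK fun i => c * S.foldr (fun l g => (DK h0).vf (b l) g) (u i) := by
  induction S with
  | nil => exact ⟨1, one_ne_zero, ⟨_, .const 1, .one⟩, by simpa using h⟩
  | cons l S ih =>
    obtain ⟨c, c1, c2, c3⟩ := ih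
    refine ⟨c * c * δ, mul_ne_zero (mul_ne_zero c1 c1) hδ, (c2.mul c2).mul h1, ?_⟩
    have := ((c3.vf (hb l)).smul c2).add
      (c3.smul (IK.mul ⟨_, .const (-1), .neg_one⟩ (c2.vf (hb l))))
    refine cast (congrArg GK (funext fun i => ?_)) this
    rw [vf_mul, List.foldr_cons]
    ring

/-- the index set of the products of minors -/
def IXp (J : IX Γ) (k ρ : ℕ) : IX Γ where
  ι := Fin (k + 1) → Fin (ρ + 1) → J.ι
  cnt := inferInstance
  act := inferInstance
  pos i := J.pos (i 0 0)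
  pos_smul γ i := J.pos_smul γ (i 0 0)

theorem exists_V {k ρ : ℕ} {w : Fin (ρ + 1) → J.ι → K h0} (h : ∀ t, GK (w t)) :
    ∃ (m : ℕ) (V : HSec P (IXp J k ρ) m), ∀ i : Fin (k + 1) → Fin (ρ + 1) → J.ι,
      Rp (∏ u, (Matrix.of fun t t' => w t (i u t')).det) fun y => V.F y i := by
  choose W h1 h2 using h
  obtain ⟨m, V, hV⟩ := GF.sec (J := IXp J k ρ) (P := P)
    (w := fun i y => ∏ u, (Matrix.of fun t t' => W t (i u t') y).det)
    ⟨Fam.prod fun _ => Fam.det fun t => (h1 t).1, fun g y hy i =>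
      Finset.prod_congr rfl fun u _ => congrArg _ (Matrix.ext fun t t' => (h1 t).2 g y hy _)⟩
  exact ⟨m, V, fun i => (Rp.prod _ fun u => Rp.det fun t t' => h2 t (i u t')).congr
    ((gen_Eo P).mono fun y hy => (hV y hy i).symm)⟩

end Vale.Agent.P284Z.Cb
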