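import Mathlib
import Vale.Agent.P284Z.Defs

/-! P284Z, block C: modules of germs spanned by the jets along a frame. -/

open scoped Topology ContDiff
open Filter Set Function

noncomputable section

namespace Vale.Agent.P284Z.Cb

open Vale.Agent.P272.K

variable {n p d : ℕ} {H : Type} [NormedAddCommGroup H] [NormedSpace ℂ H] [CompleteSpace H]
  {z : Cm n} {F G L : Cm n → H} {S S' : Set (Cm n → H)} {η η' : Cm n → Cm n} {a : Cm n → ℂ}

/-- derivative along a vector field -/
def dv (η : Cm n → Cm n) (F : Cm n → H) : Cm n → H := fun w => fderiv ℂ F w (η w)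

theorem an_dv (hF : AnalyticAt ℂ F z) (hη : AnalyticAt ℂ η z) : AnalyticAt ℂ (dv η F) z :=
  ((ContinuousLinearMap.id ℂ (Cm n →L[ℂ] H)).analyticAt_bilinear _).comp₂ hF.fderiv hη

omit [CompleteSpace H] in
theorem dv_congr (h : F =ᶠ[𝓝 z] G) : dv η F =ᶠ[𝓝 z] dv η G :=
  h.fderiv.mono fun w hw => by rw [dv, hw, dv]

theorem dv_comm (hF : AnalyticAt ℂ F z) (hη : AnalyticAt ℂ η z) (hη' : AnalyticAt ℂ η' z) :
    dv η (dv η' F) z - dv η' (dv η F) z = fderiv ℂ F z (dv η η' z - dv η' η z) :=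
  (VectorField.fderiv_apply_lieBracket (n := ω) hF.contDiffAt le_top hη'.differentiableAt
    hη.differentiableAt).symm

omit [CompleteSpace H] in
theorem dv_smul (ha : AnalyticAt ℂ a z) (hF : AnalyticAt ℂ F z) :
    dv η (fun w => a w • F w) z = dv η a z • F z + a z • dv η F z := by
  rw [dv, fderiv_fun_smul ha.differentiableAt hF.differentiableAt, add_comm]
  rfl

theorem an_dl (hF : AnalyticAt ℂ F z) : ∀ l : List (Cm n), AnalyticAt ℂ (dl l F) z
  | [] => hF
  | _ :: l => an_dv (an_dl hF l) analyticAt_const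

theorem dl_perm (hF : AnalyticAt ℂ F z) {l l' : List (Cm n)} (h : l.Perm l') :
    dl l F =ᶠ[𝓝 z] dl l' F := by
  induction h with
  | nil => rfl
  | cons x _ ih => exact dv_congr (η := fun _ => x) ih
  | swap x y l =>
    filter_upwards [(an_dl hF l).eventually_analyticAt] with w hw
    have := dv_comm (η := fun _ => y) (η' := fun _ => x) hw analyticAt_const analyticAt_const
    simp only [dv, fderiv_fun_const, Pi.zero_apply, zero_apply, sub_self,
      map_zero] at this
    exact sub_eq_zero.1 this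
  | trans _ _ h1 h2 => exact h1.trans h2

/-- the module of germs generated by `S` -/
inductive Mo (z : Cm n) (S : Set (Cm n → H)) : (Cm n → H) → Prop
  | base {a : Cm n → ℂ} {G : Cm n → H} : AnalyticAt ℂ a z → G ∈ S → Mo z S fun w => a w • G w
  | zero : Mo z S fun _ => 0
  | add {F G : Cm n → H} : Mo z S F → Mo z S G → Mo z S fun w => F w + G w
  | congr {F G : Cm n → H} : Mo z S F → F =ᶠ[𝓝 z] G → Mo z S G

omit [CompleteSpace H]

theorem Mo.mem (h : G ∈ S) : Mo z S G :=
  (Mo.base (a := fun _ => 1) analyticAt_const h).congr (by simp)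

theorem Mo.smul (ha : AnalyticAt ℂ a z) (h : Mo z S F) : Mo z S fun w => a w • F w := by
  induction h with
  | base h1 h2 => exact (Mo.base (ha.mul h1) h2).congr (.of_forall fun w => mul_smul _ _ _)
  | zero => simpa using Mo.zero
  | add _ _ h1 h2 => simpa using h1.add h2
  | congr _ h1 h2 => exact h2.congr (h1.mono fun w hw => by simp only [hw])

theorem Mo.sum {κ : Type} (s : Finset κ) {F : κ → Cm n → H} (h : ∀ k, Mo z S (F k)) :
    Mo z S fun w => ∑ k ∈ s, F k w := by
  classical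
  induction s using Finset.induction_on with
  | empty => simpa using Mo.zero
  | insert k s hk ih => simpa [Finset.sum_insert hk] using (h k).add ih

theorem Mo.mono (h : Mo z S F) (hS : S ⊆ S') : Mo z S' F := by
  induction h with
  | base h1 h2 => exact .base h1 (hS h2)
  | zero => exact .zero
  | add _ _ h1 h2 => exact h1.add h2
  | congr _ h1 h2 => exact h2.congr h1

theorem Mo.an (h : Mo z S F) (hS : ∀ G ∈ S, AnalyticAt ℂ G z) : AnalyticAt ℂ F z := by
  induction h with
  | base h1 h2 => exact h1.smul (hS _ h2)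
  | zero => exact analyticAt_const
  | add _ _ h1 h2 => exact h1.add h2
  | congr _ h1 h2 => exact h2.congr h1

theorem Mo.val (h : Mo z S F) {U : Submodule ℂ H} (hS : ∀ G ∈ S, G z ∈ U) : F z ∈ U := by
  induction h with
  | base _ h2 => exact U.smul_mem _ (hS _ h2)
  | zero => exact U.zero_mem
  | add _ _ h1 h2 => exact U.add_mem h1 h2
  | congr _ h1 h2 => exact h1.self_of_nhds ▸ h2

variable [CompleteSpace H]

theorem Mo.der (h : Mo z S F) (hS : ∀ G ∈ S, AnalyticAt ℂ G z) (hS' : S ⊆ S')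
    (hη : AnalyticAt ℂ η z) (h1 : ∀ G ∈ S, Mo z S' (dv η G)) : Mo z S' (dv η F) := by
  induction h with
  | base h2 h3 =>
    refine ((Mo.base (an_dv h2 hη) (hS' h3)).add ((h1 _ h3).smul h2)).congr ?_
    filter_upwards [h2.eventually_analyticAt, (hS _ h3).eventually_analyticAt] with w w1 w2
    exact (dv_smul w1 w2).symm
  | zero => exact Mo.zero.congr (.of_forall fun w => by simp [dv])
  | add h2 h3 h4 h5 =>
    refine (h4.add h5).congr ?_
    filter_upwards [(h2.an hS).eventually_analyticAt, (h3.an hS).eventually_analyticAt]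
      with w w1 w2
    rw [dv, dv, dv, fderiv_fun_add w1.differentiableAt w2.differentiableAt]
    rfl
  | congr _ h2 h3 => exact h3.congr (dv_congr h2)

/-- `L` is projectively constant along the fields `X`, which are complementary to the frame `ξ` -/
structure Fr (L : Cm n → H) (z : Cm n) (X : Fin d → Cm n → Cm n) (ξ : Fin p → Cm n) : Prop where
  an : AnalyticAt ℂ L z
  anX : ∀ l, AnalyticAt ℂ (X l) z
  rel : ∀ l, ∃ a : Cm n → ℂ, AnalyticAt ℂ a z ∧ dv (X l) L =ᶠ[𝓝 z] fun w => a w • L w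
  span : ∀ ζ : Cm n, ∃ (a : Fin d → ℂ) (b : Fin p → ℂ), ζ = ∑ l, a l • X l z + ∑ m, b m • ξ m

/-- the jets of order at most `j` -/
def Sj {H : Type} [NormedAddCommGroup H] [NormedSpace ℂ H] (L : Cm n → H) (ξ : Fin p → Cm n) (j : ℕ) : Set (Cm n → H) :=
  {G | ∃ w : List (Fin p), w.length ≤ j ∧ G = dl (w.map ξ) L}

namespace Fr
variable {X : Fin d → Cm n → Cm n} {ξ : Fin p → Cm n} (h : Fr L z X ξ)
include h

omit [CompleteSpace H] in
theorem frame (hη : AnalyticAt ℂ η z) : ∃ (a : Fin d → Cm n → ℂ) (b : Fin p → Cm n → ℂ),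
    (∀ l, AnalyticAt ℂ (a l) z) ∧ (∀ m, AnalyticAt ℂ (b m) z) ∧
      η =ᶠ[𝓝 z] fun w => ∑ l, a l w • X l w + ∑ m, b m w • ξ m := by
  choose a b hab using fun i : Fin n => h.span (Pi.single i 1)
  let N : Cm n → (Cm n →L[ℂ] Cm n) := fun w => ∑ i, (ContinuousLinearMap.proj i).smulRight
    (∑ l, a i l • X l w + ∑ m, b i m • ξ m)
  have h1 : AnalyticAt ℂ N z := Finset.analyticAt_fun_sum _ fun i _ =>
    ((ContinuousLinearMap.smulRightL ℂ (Cm n) (Cm n) (ContinuousLinearMap.proj i)).analyticAt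
      _).comp (f := fun w => ∑ l, a i l • X l w + ∑ m, b i m • ξ m)
      (AnalyticAt.fun_add (Finset.analyticAt_fun_sum _ fun l _ =>
        AnalyticAt.fun_smul analyticAt_const (h.anX l)) analyticAt_const)
  have h2 : N z = (1 : (Cm n →L[ℂ] Cm n)ˣ) := by
    refine ContinuousLinearMap.ext fun u => ?_
    simp only [N, ← hab]
    simpa using (pi_eq_sum_univ' u).symm
  have h3 : AnalyticAt ℂ (fun w => Ring.inverse (N w) (η w)) z :=
    ((ContinuousLinearMap.id ℂ (Cm n →L[ℂ] Cm n)).analyticAt_bilinear _).comp₂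
      ((analyticAt_inverse 1).comp_of_eq h1 h2) hη
  have h4 : ∀ i, AnalyticAt ℂ (fun w => Ring.inverse (N w) (η w) i) z := analyticAt_pi_iff.1 h3
  refine ⟨fun l w => ∑ i, Ring.inverse (N w) (η w) i * a i l,
    fun m w => ∑ i, Ring.inverse (N w) (η w) i * b i m,
    fun l => Finset.analyticAt_fun_sum _ fun i _ => (h4 i).mul analyticAt_const,
    fun l => Finset.analyticAt_fun_sum _ fun i _ => (h4 i).mul analyticAt_const, ?_⟩
  filter_upwards [h1.continuousAt.eventually (h2 ▸ Units.nhds (1 : (Cm n →L[ℂ] Cm n)ˣ))] with w hw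
  have h5 : η w = N w (Ring.inverse (N w) (η w)) := by
    rw [← mul_apply_eq_comp, Ring.mul_inverse_cancel _ hw]
    rfl
  generalize Ring.inverse (N w) (η w) = u at h5 ⊢
  rw [h5]
  simp only [N, sum_apply, ContinuousLinearMap.smulRight_apply,
    ContinuousLinearMap.proj_apply, smul_add, Finset.smul_sum, Finset.sum_smul, smul_smul,
    Finset.sum_add_distrib]
  rw [Finset.sum_comm, Finset.sum_comm (f := fun x y => (u x * b x y) • ξ y)]

theorem anS (j : ℕ) : ∀ G ∈ Sj L ξ j, AnalyticAt ℂ G z := by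
  rintro _ ⟨w, -, rfl⟩
  exact an_dl h.an _

omit [CompleteSpace H] h in
theorem subS (j : ℕ) : Sj L ξ j ⊆ Sj L ξ (j + 1) := fun _ ⟨w, h1, h2⟩ => ⟨w, by omega, h2⟩

theorem step {j : ℕ} (hQ : ∀ l, ∀ G ∈ Sj L ξ j, Mo z (Sj L ξ j) (dv (X l) G))
    (hη : AnalyticAt ℂ η z) (hF : Mo z (Sj L ξ j) F) : Mo z (Sj L ξ (j + 1)) (dv η F) := by
  refine hF.der (h.anS j) (subS j) hη fun G hG => ?_
  obtain ⟨a, b, h1, h2, h3⟩ := h.frame hη
  refine ((Mo.sum Finset.univ fun l => ((hQ l G hG).mono (subS j)).smul (h1 l)).add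
    (Mo.sum Finset.univ fun m => Mo.base (G := dv (fun _ => ξ m) G) (h2 m) ?_)).congr ?_
  · obtain ⟨w, w1, rfl⟩ := hG
    exact ⟨m :: w, by simpa using w1, rfl⟩
  · filter_upwards [h3] with w hw
    simp [dv, hw]

theorem tang (j : ℕ) : ∀ l, ∀ G ∈ Sj L ξ j, Mo z (Sj L ξ j) (dv (X l) G) := by
  have h0 : ∀ j l, Mo z (Sj L ξ j) (dv (X l) L) := fun j l => by
    obtain ⟨a, h1, h2⟩ := h.rel l
    exact (Mo.base h1 (show L ∈ Sj L ξ j from ⟨[], by simp, rfl⟩)).congr h2.symm
  induction j with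
  | zero =>
    rintro l _ ⟨w, h1, rfl⟩
    rw [List.length_eq_zero_iff.1 (Nat.le_zero.1 h1)]
    exact h0 0 l
  | succ j ih =>
    rintro l _ ⟨_ | ⟨m, w⟩, h1, rfl⟩
    · exact h0 _ l
    · have hG : dl (w.map ξ) L ∈ Sj L ξ j := ⟨w, by simpa using h1, rfl⟩
      refine ((h.step ih (η := fun _ => ξ m) analyticAt_const (ih l _ hG)).add
        ((h.step ih (an_dv (η := fun _ => ξ m) (h.anX l) analyticAt_const) (.mem hG)).smul
          (a := fun _ => -1) analyticAt_const)).congr ?_
      filter_upwards [(h.anS j _ hG).eventually_analyticAt, (h.anX l).eventually_analyticAt]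
        with u u1 u2
      have := dv_comm (η := fun _ => ξ m) u1 analyticAt_const u2
      rw [show dv (X l) (fun _ => ξ m) u = 0 by simp [dv], sub_zero, sub_eq_iff_eq_add] at this
      rw [this, neg_one_smul]
      exact add_neg_cancel_comm _ _

theorem der {j : ℕ} (hη : AnalyticAt ℂ η z) (hF : Mo z (Sj L ξ j) F) :
    Mo z (Sj L ξ (j + 1)) (dv η F) := h.step (h.tang j) hη hF

theorem val {j : ℕ} (hF : Mo z (Sj L ξ j) F) :
    F z ∈ Submodule.span ℂ (range fun α : Idx p j => jet L z ξ α.1) := by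
  refine hF.val ?_
  rintro _ ⟨w, h1, rfl⟩
  refine Submodule.subset_span ⟨⟨fun i => w.count i, ?_⟩, (dl_perm h.an ?_).self_of_nhds⟩
  · rwa [← List.sum_toFinset_count_eq_length, Finset.sum_subset (Finset.subset_univ _)
      fun i _ hi => List.count_eq_zero.2 (by simpa using hi)] at h1
  · have : (List.ofFn fun i => List.replicate (w.count i) (ξ i)).flatten =
        (List.ofFn fun i => List.replicate (w.count i) i).flatten.map ξ := by
      simp [List.map_flatten, List.map_ofFn, comp_def]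
    rw [this]
    refine List.Perm.map _ (List.perm_iff_count.2 fun i => ?_)
    simp [List.count_flatten, List.map_ofFn, List.sum_ofFn, List.count_replicate]

theorem jets {j : ℕ} {F : Idx p j → Cm n → H} (hF : ∀ α, Mo z (Sj L ξ j) (F α))
    (hi : LinearIndependent ℂ fun α => F α z) :
    LinearIndependent ℂ fun α : Idx p j => jet L z ξ α.1 := by
  have := Fintype.ofFinite (Idx p j)
  have := FiniteDimensional.span_of_finite ℂ (finite_range fun α : Idx p j => jet L z ξ α.1)
  rw [linearIndependent_iff_card_le_finrank_span, ← finrank_span_eq_card hi]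
  exact Submodule.finrank_mono (Submodule.span_le.2 (range_subset_iff.2 fun α => h.val (hF α)))

omit [CompleteSpace H] in
theorem rank (ζ : Fin (p + 1) → Cm n) : ¬ LinearIndependent ℂ
    (Fin.cons (L z) fun i => fderiv ℂ L z (ζ i) : Fin (p + 1 + 1) → H) := fun hi => by
  set T : Fin (p + 1) → H := Fin.cons (L z) fun m => fderiv ℂ L z (ξ m)
  have := FiniteDimensional.span_of_finite ℂ (finite_range T)
  have h0 : L z ∈ Submodule.span ℂ (range T) := Submodule.subset_span ⟨0, rfl⟩
  have h1 := Submodule.finrank_mono (t := Submodule.span ℂ (range T)) (Submodule.span_le.2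
    (range_subset_iff.2 (Fin.cases (motive := fun i => (Fin.cons (L z) fun i => fderiv ℂ L z (ζ i) :
      Fin (p + 1 + 1) → H) i ∈ _) h0 fun i => ?_)))
  · have h2 : Module.finrank ℂ (Submodule.span ℂ (range T)) ≤ _ := finrank_range_le_card T
    rw [finrank_span_eq_card hi] at h1
    simp only [Fintype.card_fin] at h1 h2
    omega
  · obtain ⟨a, b, e⟩ := h.span (ζ i)
    simp only [Fin.cons_succ, e, map_add, map_sum, map_smul]
    refine Submodule.add_mem _ (Submodule.sum_mem _ fun l _ => Submodule.smul_mem _ _ ?_)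
      (Submodule.sum_mem _ fun m _ => Submodule.smul_mem _ _ (Submodule.subset_span ⟨m.succ, rfl⟩))
    obtain ⟨c, -, hc⟩ := h.rel l
    exact (show fderiv ℂ L z (X l z) = _ from hc.self_of_nhds) ▸ Submodule.smul_mem _ _ h0

theorem smul {L' : Cm n → H} (ha : AnalyticAt ℂ a z) (h0 : a z ≠ 0)
    (e : L' =ᶠ[𝓝 z] fun w => a w • L w) : Fr L' z X ξ := by
  refine ⟨(ha.smul h.an).congr e.symm, h.anX, fun l => ?_, h.span⟩
  obtain ⟨c, h1, h2⟩ := h.rel l
  refine ⟨fun w => dv (X l) a w / a w + c w, ((an_dv ha (h.anX l)).div ha h0).add h1,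
    (dv_congr e).trans ?_⟩
  filter_upwards [ha.eventually_analyticAt, h.an.eventually_analyticAt, h2, e,
    ha.continuousAt.eventually_ne h0] with w w1 w2 w3 w4 w5
  rw [dv_smul w1 w2, w3, w4, smul_smul, smul_smul, ← add_smul]
  congr 1
  field_simp

end Fr

/-- a map of projective rank zero -/
theorem proj_const (hL : AnalyticAt ℂ L z) (φ : H →L[ℂ] ℂ) (h0 : φ (L z) ≠ 0)
    (h : ∀ᶠ w in 𝓝 z, ∀ ζ, ∃ c : ℂ, c • L w = fderiv ℂ L w ζ) :
    ∀ᶠ w in 𝓝 z, φ (L z) • L w = φ (L w) • L z := by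
  have h1 : AnalyticAt ℂ (fun w => φ (L w)) z := (φ.analyticAt _).comp hL
  obtain ⟨r, hr, h2⟩ := Metric.nhds_basis_ball.eventually_iff.1 (h.and
    (hL.eventually_analyticAt.and (h1.continuousAt.eventually_ne h0)))
  have h3 : ∀ w ∈ Metric.ball z r, HasFDerivAt (fun w => (φ (L w))⁻¹ • L w) (0 : Cm n →L[ℂ] H) w :=
    fun w hw => by
    obtain ⟨w1, w2, w3⟩ := h2 hw
    have w4 := w2.differentiableAt.hasFDerivAt
    refine (((hasFDerivAt_inv w3).comp w (φ.hasFDerivAt.comp w w4)).smul w4).congr_fderiv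
      (ContinuousLinearMap.ext fun ζ => ?_)
    obtain ⟨c, hc⟩ := w1 ζ
    simp only [add_apply, smul_apply,
      ContinuousLinearMap.smulRight_apply, ContinuousLinearMap.comp_apply, ← hc, map_smul,
      smul_smul, ← add_smul, zero_apply, smul_eq_mul]
    refine smul_eq_zero_of_left ?_ _
    simp
    field_simp
    ring
  filter_upwards [Metric.ball_mem_nhds z hr] with w hw
  have h4 := Metric.isOpen_ball.is_const_of_fderiv_eq_zero (convex_ball z r).isPreconnected
    (fun w hw => (h3 w hw).differentiableAt.differentiableWithinAt) (fun w hw => (h3 w hw).fderiv)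
    hw (Metric.mem_ball_self hr)
  have h5 := congrArg (fun u => (φ (L z) * φ (L w)) • u) h4
  have h6 := (h2 hw).2.2
  simp only [smul_smul] at h5
  rwa [mul_inv_cancel_right₀ h6, mul_comm, inv_mul_cancel_left₀ h0] at h5

end Vale.Agent.P284Z.Cb
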