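import Vale.Agent.P284.H661.Lim2

/-! P284Z, block C: operations on square summable families, power sums, linear algebra. -/

open scoped Topology ENNReal
open Filter Set Function

noncomputable section

namespace Vale.Agent.P284Z.Cb

open Vale.Agent.P284.H661.Lim

variable {α β : Type}

/-- restriction along an injection -/
def pull (e : β → α) (he : Injective e) : L2 α →L[ℂ] L2 β :=
  LinearMap.mkContinuous
    { toFun := fun x => ⟨fun b => x (e b), mem_iff.2 ((summable_sq x).comp_injective he)⟩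
      map_add' := fun _ _ => lp.ext (funext fun _ => rfl)
      map_smul' := fun _ _ => lp.ext (funext fun _ => rfl) } 1 fun x => by
    rw [one_mul]
    refine le_of_sq_le_sq ?_ (norm_nonneg _)
    rw [norm_sq, norm_sq]
    exact tsum_comp_le_tsum_of_inj (summable_sq x) (fun _ => by positivity) he

theorem pull_apply (e : β → α) (he : Injective e) (x : L2 α) (b : β) : pull e he x b = x (e b) :=
  rfl

theorem ten_sum (x : L2 α) (y : L2 β) : Summable fun q : α × β => ‖x q.1‖ ^ 2 * ‖y q.2‖ ^ 2 :=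
  (summable_sq x).mul_of_nonneg (summable_sq y) (fun _ => by positivity) fun _ => by positivity

/-- the tensor product -/
def ten : L2 α →L[ℂ] L2 β →L[ℂ] L2 (α × β) :=
  LinearMap.mkContinuous₂ (LinearMap.mk₂ ℂ
    (fun x y => ⟨fun q => x q.1 * y q.2, mem_iff.2 (by simpa [mul_pow] using ten_sum x y)⟩)
    (fun _ _ _ => lp.ext (funext fun _ => add_mul _ _ _))
    (fun _ _ _ => lp.ext (funext fun _ => mul_assoc _ _ _))
    (fun _ _ _ => lp.ext (funext fun _ => mul_add _ _ _))
    (fun _ _ _ => lp.ext (funext fun _ => mul_left_comm _ _ _))) 1 fun x y => by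
    rw [one_mul]
    refine le_of_sq_le_sq ?_ (by positivity)
    rw [mul_pow, norm_sq, norm_sq, norm_sq,
      (summable_sq x).tsum_mul_tsum (summable_sq y) (ten_sum x y)]
    exact le_of_eq (tsum_congr fun q => by simp [mul_pow])

theorem ten_apply (x : L2 α) (y : L2 β) (q : α × β) : ten x y q = x q.1 * y q.2 := rfl

/-- the bilinear pairing -/
def pair : L2 α →L[ℂ] L2 α →L[ℂ] ℂ :=
  lp.dualPairing 2 2 (fun _ => ContinuousLinearMap.mul ℂ ℂ) (K := 1)
    fun _ => ContinuousLinearMap.opNorm_mul_le ℂ ℂ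

theorem pair_apply (x y : L2 α) : pair x y = ∑' i, x i * y i := lp.dualPairing_apply ..

/-- evaluation -/
def ev (i : α) : L2 α →L[ℂ] ℂ := lp.evalCLM ℂ (fun _ : α => ℂ) 2 i

theorem ev_apply (i : α) (x : L2 α) : ev i x = x i := rfl

theorem exists_ne {x : L2 α} (h : x ≠ 0) : ∃ i, x i ≠ 0 := by
  by_contra! h1
  exact h (lp.ext (funext h1))

theorem fin_ge (x : L2 α) {c : ℝ} (hc : 0 < c) : {i | c ≤ ‖x i‖}.Finite := by
  have h := (summable_sq x).tendsto_cofinite_zero.eventually (gt_mem_nhds (pow_pos hc 2))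
  refine (eventually_cofinite.1 h).subset fun i hi => ?_
  exact not_lt.2 (pow_le_pow_left₀ hc.le hi 2)

theorem fin_coord {K : Set (L2 α)} (hK : IsCompact K) {c : ℝ} (hc : 0 < c) :
    {i | ∃ x ∈ K, c ≤ ‖x i‖}.Finite := by
  refine hK.induction_on (p := fun S => {i | ∃ x ∈ S, c ≤ ‖x i‖}.Finite) (by simp)
    (fun s t h ht => ht.subset fun i ⟨x, h1, h2⟩ => ⟨x, h h1, h2⟩)
    (fun s t hs ht => (hs.union ht).subset fun i ⟨x, h1, h2⟩ =>
      h1.imp (fun h => ⟨x, h, h2⟩) fun h => ⟨x, h, h2⟩) fun x _ => ?_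
  refine ⟨_, mem_nhdsWithin_of_mem_nhds (Metric.ball_mem_nhds x (half_pos hc)),
    (fin_ge x (half_pos hc)).subset fun i ⟨y, h1, h2⟩ => ?_⟩
  have h3 : ‖y i - x i‖ ≤ ‖y - x‖ := norm_apply_le (y - x) i
  have h4 := norm_sub_norm_le (y i) (x i)
  rw [mem_ball_iff_norm] at h1
  show c / 2 ≤ ‖x i‖
  linarith

theorem low {K : Set (L2 α)} (hK : IsCompact K) (h0 : ∀ x ∈ K, x ≠ 0) :
    ∃ c > (0 : ℝ), ∀ x ∈ K, ∃ i, c ≤ ‖x i‖ := by
  refine hK.induction_on (p := fun S => ∃ c > (0 : ℝ), ∀ x ∈ S, ∃ i, c ≤ ‖x i‖)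
    ⟨1, one_pos, by simp⟩ (fun s t h ⟨c, h1, h2⟩ => ⟨c, h1, fun x hx => h2 x (h hx)⟩)
    (fun s t ⟨c, h1, h2⟩ ⟨c', h3, h4⟩ => ⟨min c c', lt_min h1 h3, fun x hx => hx.elim
      (fun h => (h2 x h).imp fun _ => (min_le_left _ _).trans)
      fun h => (h4 x h).imp fun _ => (min_le_right _ _).trans⟩) fun x hx => ?_
  obtain ⟨i, hi⟩ := exists_ne (h0 x hx)
  have h1 := norm_pos_iff.2 hi
  exact ⟨_, mem_nhdsWithin_of_mem_nhds ((ev i).continuous.norm.continuousAt.eventually
    (lt_mem_nhds (half_lt_self h1))), _, half_pos h1, fun y hy => ⟨i, le_of_lt hy⟩⟩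

theorem pow_one_le {c : α → ℂ} (hs : Summable fun i => ‖c i‖ ^ 2) (h1 : ∀ i, ‖c i‖ ≤ 1) {j : α}
    (hj : c j = 1) : ∃ k, ∑' i, c i ^ (k + 2) ≠ 0 := by
  classical
  by_contra! h
  have h2 : ∀ i, ‖(1 + c i) / 2‖ ≤ 1 := fun i => by
    have := norm_add_le 1 (c i)
    rw [norm_div, Complex.norm_two, norm_one] at *
    linarith [h1 i]
  have h3 : ∀ N k i, ‖c i ^ (k + 2) * ((1 + c i) / 2) ^ N‖ ≤ ‖c i‖ ^ 2 := fun N k i => by
    rw [norm_mul, norm_pow, norm_pow, pow_add]
    exact (mul_le_of_le_one_right (by positivity) (pow_le_one₀ (norm_nonneg _) (h2 i))).trans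
      (mul_le_of_le_one_left (by positivity) (pow_le_one₀ (norm_nonneg _) (h1 i)))
  have h4 : ∀ N k : ℕ, HasSum (fun i => c i ^ (k + 2) * ((1 + c i) / 2) ^ N) 0 := by
    intro N
    induction N with
    | zero =>
      intro k
      simpa [h k] using (Summable.of_norm_bounded hs (h3 0 k)).hasSum
    | succ N ih =>
      intro k
      have := ((ih k).add (ih (k + 1))).div_const 2
      rw [add_zero, zero_div] at this
      rwa [show (fun i => c i ^ (k + 2) * ((1 + c i) / 2) ^ (N + 1)) = fun i => (c i ^ (k + 2) *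
        ((1 + c i) / 2) ^ N + c i ^ (k + 1 + 2) * ((1 + c i) / 2) ^ N) / 2 from
        funext fun i => by ring]
  have h5 := tendsto_tsum_of_dominated_convergence (𝓕 := atTop)
    (f := fun N i => c i ^ (0 + 2) * ((1 + c i) / 2) ^ N) (g := fun i => if c i = 1 then 1 else 0)
    hs (fun i => by
      split_ifs with hi
      · simp [hi]
      · have : ‖(1 + c i) / 2‖ < 1 := by
          refine (h2 i).lt_of_ne fun e => hi ?_
          have e1 := Complex.sq_norm ((1 + c i) / 2)
          have e2 := Complex.sq_norm (c i)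
          have e3 := pow_le_one₀ (norm_nonneg _) (h1 i) (n := 2)
          have e4 := (Complex.re_le_norm (c i)).trans (h1 i)
          rw [e] at e1
          simp [Complex.normSq_apply] at e1 e2
          apply Complex.ext <;> simp <;> nlinarith
        simpa using (tendsto_pow_atTop_nhds_zero_of_norm_lt_one this).const_mul (c i ^ 2))
    (Eventually.of_forall fun N => h3 N 0)
  simp only [(h4 _ _).tsum_eq, tendsto_const_nhds_iff] at h5
  have h6 : Summable fun i => if c i = 1 then (1 : ℝ) else 0 :=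
    hs.of_nonneg_of_le (fun i => by positivity) fun i => by
      split_ifs with hi
      · simp [hi]
      · positivity
  have h7 := h6.tsum_pos (fun i => by positivity) j (by simp [hj])
  have h8 := Complex.ofReal_tsum (L := .unconditional α) fun i => if c i = 1 then (1 : ℝ) else 0
  simp only [apply_ite Complex.ofReal, Complex.ofReal_one, Complex.ofReal_zero] at h8
  exact h7.ne' (by exact_mod_cast h8.trans h5.symm)

/-- power sums -/
theorem pow_sum {x : L2 α} (hx : x ≠ 0) : ∃ k, ∑' i, x i ^ (k + 2) ≠ 0 := by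
  obtain ⟨i, hi⟩ := exists_ne hx
  obtain ⟨j, h1, h2⟩ := Set.exists_max_image _ (fun i => ‖x i‖) (fin_ge x (norm_pos_iff.2 hi))
    ⟨i, le_refl ‖x i‖⟩
  have h3 : x j ≠ 0 := norm_pos_iff.1 ((norm_pos_iff.2 hi).trans_le h1)
  obtain ⟨k, hk⟩ := pow_one_le (c := fun i => x i / x j) (j := j)
    (by simpa [div_pow] using (summable_sq x).div_const (‖x j‖ ^ 2))
    (fun l => by
      rw [norm_div, div_le_one (norm_pos_iff.2 h3)]
      exact (le_total ‖x i‖ ‖x l‖).elim (h2 l) fun h => h.trans h1) (div_self h3)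
  refine ⟨k, fun h => hk ?_⟩
  simp only [div_pow, tsum_div_const, h, zero_div]

/-! ### linear algebra -/

theorem exists_minor {K A ι : Type} [Field K] [Fintype A] [DecidableEq A] {u : A → ι → K}
    (h : LinearIndependent K u) : ∃ s : A → ι, (Matrix.of fun a b => u a (s b)).det ≠ 0 := by
  have h1 : Submodule.span K (range fun i a => u a i) = ⊤ := by
    by_contra h1
    obtain ⟨f, f1, f2⟩ := Submodule.exists_le_ker_of_lt_top _ (lt_top_iff_ne_top.2 h1)
    refine f1 (LinearMap.pi_ext' fun a => LinearMap.ext_ring ?_)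
    refine Fintype.linearIndependent_iff.1 h (fun a => f (Pi.single a 1)) (funext fun i => ?_) a
    have := f2 (Submodule.subset_span ⟨i, rfl⟩)
    rw [LinearMap.mem_ker, LinearMap.pi_apply_eq_sum_univ] at this
    have e : ∀ x : A, (Pi.single x 1 : A → K) = fun j => if x = j then 1 else 0 :=
      fun x => funext fun j => by rw [Pi.single_apply]; exact if_congr eq_comm rfl rfl
    simpa [e, mul_comm] using this
  obtain ⟨κ, a, -, a2, a3⟩ := exists_linearIndependent' K fun i a => u a i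
  let b := Module.Basis.mk a3 (a2.trans h1).ge
  let e := b.indexEquiv (Pi.basisFun K A)
  refine ⟨a ∘ e.symm, IsUnit.ne_zero ((Matrix.isUnit_iff_isUnit_det _).1
    (Matrix.linearIndependent_cols_iff_isUnit.1 ?_))⟩
  exact a3.comp _ e.symm.injective

theorem cramer_rel {K ι : Type} [CommRing K] {ρ : ℕ} (w : Fin ρ → ι → K) (c : Fin ρ → K)
    (j : Fin ρ → ι) (i : ι) : (∑ s, c s * w s i) * (Matrix.of fun s t => w s (j t)).det =
      ∑ t, (∑ s, c s * w s (j t)) * (Matrix.of fun s t' => w s (update j t i t')).det := by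
  have h := fun s => congrFun (Matrix.mulVec_cramer (Matrix.of fun s t => w s (j t))
    fun s => w s i) s
  simp only [Matrix.mulVec, dotProduct, Matrix.cramer_apply, Pi.smul_apply, smul_eq_mul,
    Matrix.of_apply] at h
  simp only [Finset.sum_mul]
  rw [Finset.sum_comm]
  refine Finset.sum_congr rfl fun s _ => ?_
  rw [mul_assoc, mul_comm (w s i), ← h, Finset.mul_sum]
  refine Finset.sum_congr rfl fun t _ => ?_
  rw [mul_assoc]
  congr 3
  ext s' t'
  simp only [Matrix.updateCol_apply, Matrix.of_apply, update_apply]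
  split_ifs <;> rfl

/-- a derivation which preserves the span of the rows multiplies all the minors by one factor -/
theorem der_det {K ι : Type} [CommRing K] {ρ : ℕ} (k : ℕ) (X : K →+ K)
    (hX : ∀ f g, X (f * g) = X f * g + f * X g) (w : Fin ρ → ι → K) (A : Fin ρ → Fin ρ → K)
    (hA : ∀ t i, X (w t i) = ∑ s, A t s * w s i) : ∃ l : K, ∀ j : Fin k → Fin ρ → ι,
      X (∏ u, (Matrix.of fun t t' => w t (j u t')).det) =
        l * ∏ u, (Matrix.of fun t t' => w t (j u t')).det := by
  have h1 : X 1 = 0 := by simpa using hX 1 1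
  let φ : K →+* DualNumber K :=
    { toFun := fun f => TrivSqZeroExt.inl f + TrivSqZeroExt.inr (X f)
      map_one' := by simp [h1]
      map_mul' := fun f g => by ext <;> simp [hX, add_comm]
      map_zero' := by simp
      map_add' := fun f g => by ext <;> simp }
  have hφ : ∀ f, φ f = TrivSqZeroExt.inl f + TrivSqZeroExt.inr (X f) := fun _ => rfl
  let ψ : K →+* DualNumber K := TrivSqZeroExt.inlHom K K
  have hψ : ∀ f, ψ f = TrivSqZeroExt.inl f := fun _ => rfl
  obtain ⟨M, hM⟩ : ∃ M : Matrix (Fin ρ) (Fin ρ) (DualNumber K), ∀ t s, M t s =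
    TrivSqZeroExt.inl ((1 : Matrix _ _ K) t s) + TrivSqZeroExt.inr (A t s) := ⟨_, fun _ _ => rfl⟩
  have h2 : ∀ j : Fin ρ → ι, φ (Matrix.of fun t t' => w t (j t')).det =
      M.det * ψ (Matrix.of fun t t' => w t (j t')).det := fun j => by
    rw [φ.map_det, ψ.map_det, ← Matrix.det_mul]
    congr 1
    ext t t'
    · simp [hφ, hψ, hM, Matrix.mul_apply, TrivSqZeroExt.fst_sum, Matrix.one_apply]
    · simp [hφ, hψ, hM, Matrix.mul_apply, TrivSqZeroExt.snd_sum, hA]
  refine ⟨(M.det ^ k).snd, fun j => ?_⟩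
  have h3 : φ (∏ u, (Matrix.of fun t t' => w t (j u t')).det) =
      M.det ^ k * ψ (∏ u, (Matrix.of fun t t' => w t (j u t')).det) := by
    simp only [map_prod, h2, Finset.prod_mul_distrib, Finset.prod_const, Finset.card_univ,
      Fintype.card_fin]
  have h4 := congrArg TrivSqZeroExt.snd h3
  rw [DualNumber.snd_mul, hφ, hψ] at h4
  simpa only [TrivSqZeroExt.snd_add, TrivSqZeroExt.snd_inl, TrivSqZeroExt.snd_inr, zero_add,
    TrivSqZeroExt.fst_inl, mul_zero] using h4

end Vale.Agent.P284Z.Cb
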