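import Vale.Agent.P284Z.F0.Cov
import Vale.Agent.P284Z.C.Jet
import Vale.Agent.P284Z.C.L2

/-! P284Z, block C: derivatives along the coordinates `x`, functions with poles along `s`. -/

open scoped Topology
open Filter Set Function

noncomputable section

namespace Vale.Agent.P284Z.Cb

open Vale.Agent.P272.K Vale.Agent.P284.H661.Lim

variable {n : ℕ} {Γ E : Type} [Group Γ] [TopologicalSpace E] [MulAction Γ E] {C : Cov n Γ E}
  {P : Pol C} {γ g : Γ} {a b : C.I} {z : Cm n} {y : E} {i j : Fin n}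
  {H H' H'' : Type} [NormedAddCommGroup H] [NormedSpace ℂ H] [NormedAddCommGroup H']
  [NormedSpace ℂ H'] [NormedAddCommGroup H''] [NormedSpace ℂ H''] {F G : E → H} {f : E → ℂ}

/-- the complement of the zero set of `s` -/
def Eo (P : Pol C) : Set E := {y | 0 < P.σ y}

theorem mem_pt (hz : z ∈ C.B 4 a) : C.pt γ a z ∈ Eo P ↔ P.s a z ≠ 0 := by
  simp [Eo, P.σ_eq γ a z hz, Real.exp_pos, sq_pos_iff]

theorem ex_pt (C : Cov n Γ E) (y : E) :
    ∃ q : Γ × C.I × Cm n, q.2.2 ∈ C.B 4 q.2.1 ∧ C.pt q.1 q.2.1 q.2.2 = y := by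
  obtain ⟨γ, a, z, hz, h⟩ := C.exists_pt y
  exact ⟨(γ, a, z), C.B14 hz, h.symm⟩

theorem Eo_cases (hy : y ∈ Eo P) : ∃ γ a, ∃ z ∈ C.B 4 a, P.s a z ≠ 0 ∧ y = C.pt γ a z := by
  obtain ⟨γ, a, z, hz, rfl⟩ := C.exists_pt y
  exact ⟨γ, a, z, C.B14 hz, (mem_pt (C.B14 hz)).1 hy, rfl⟩

theorem smul_mem (hy : y ∈ Eo P) (g : Γ) : g • y ∈ Eo P := by
  obtain ⟨γ, a, z, hz, hs, rfl⟩ := Eo_cases hy
  rw [C.smul_pt]
  exact (mem_pt hz).2 hs

theorem ev_s (hz : z ∈ C.B 4 a) (hs : P.s a z ≠ 0) : ∀ᶠ w in 𝓝 z, w ∈ C.B 4 a ∧ P.s a w ≠ 0 :=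
  Eventually.and ((C.isOpen_B 4 a).mem_nhds hz) ((P.s_an a z hz).continuousAt.eventually_ne hs)

theorem ev_Eo (hy : y ∈ Eo P) : ∀ᶠ y' in 𝓝 y, y' ∈ Eo P := by
  obtain ⟨γ, a, z, hz, hs, rfl⟩ := Eo_cases hy
  exact (C.ev_pt hz γ).2 ((ev_s hz hs).mono fun w hw => (mem_pt hw.1).2 hw.2)

theorem conn_Eo [ConnectedSpace E] (P : Pol C) : IsPreconnected (Eo P) ∧ Dense (Eo P) := by
  obtain ⟨h1, h2⟩ := C.preconn_of_thin (k := 4) (Ω := Eo P) (by norm_num) le_rfl isOpen_univ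
    isPreconnected_univ (subset_univ _)
    fun γ a => ⟨P.s a, P.s_an a, P.s_ne a, fun z hz hs _ => (mem_pt hz).2 hs⟩
  exact ⟨h1, fun y => h2 (mem_univ y)⟩

theorem ext_s {T : Type} [TopologicalSpace T] [T2Space T] {u v : Cm n → T} (hz : z ∈ C.B 4 a)
    (hu : ContinuousAt u z) (hv : ContinuousAt v z)
    (h : ∀ᶠ w in 𝓝 z, w ∈ C.B 4 a → P.s a w ≠ 0 → u w = v w) : u z = v z :=
  tendsto_nhds_unique_of_frequently_eq hu hv (((dense_ne_zero (C.preconn_B 4 a) (P.s_an a)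
    (P.s_ne a) hz).and_eventually (h.and ((C.isOpen_B 4 a).mem_nhds hz))).mono
      fun _ hw => hw.2.1 hw.2.2 hw.1)

/-- a chart at the point `y` -/
def rp (C : Cov n Γ E) (y : E) : Γ × C.I × Cm n := (ex_pt C y).choose

theorem rp_mem (C : Cov n Γ E) (y : E) : (rp C y).2.2 ∈ C.B 4 (rp C y).2.1 :=
  (ex_pt C y).choose_spec.1

theorem rp_eq (C : Cov n Γ E) (y : E) : C.pt (rp C y).1 (rp C y).2.1 (rp C y).2.2 = y :=
  (ex_pt C y).choose_spec.2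

/-- analytic at the point `y` -/
def An (C : Cov n Γ E) (F : E → H) (y : E) : Prop :=
  AnalyticAt ℂ (fun w => F (C.pt (rp C y).1 (rp C y).2.1 w)) (rp C y).2.2

theorem an_pt (hz : z ∈ C.B 4 a) :
    An C F (C.pt γ a z) ↔ AnalyticAt ℂ (fun w => F (C.pt γ a w)) z :=
  ⟨C.an_of_chart hz (rp_mem C _) (rp_eq C _).symm, C.an_of_chart (rp_mem C _) hz (rp_eq C _)⟩

theorem rp_ev {Q : E → Prop} (h : ∀ᶠ y' in 𝓝 y, Q y') :
    ∀ᶠ w in 𝓝 (rp C y).2.2, Q (C.pt (rp C y).1 (rp C y).2.1 w) :=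
  (C.ev_pt (rp_mem C y) _).1 (by rwa [rp_eq])

theorem An.congr (h : An C F y) (e : F =ᶠ[𝓝 y] G) : An C G y := AnalyticAt.congr h (rp_ev e)

theorem An.ev [CompleteSpace H] (h : An C F y) : ∀ᶠ y' in 𝓝 y, An C F y' := by
  rw [← rp_eq C y, C.ev_pt (rp_mem C y)]
  filter_upwards [AnalyticAt.eventually_analyticAt h, (C.isOpen_B 4 _).mem_nhds (rp_mem C y)]
    with w w1 w2
  exact (an_pt w2).2 w1

theorem An.cont (h : An C F y) : ContinuousAt F y := by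
  obtain ⟨γ, a, z, hz, rfl⟩ := C.exists_pt y
  rw [ContinuousAt, ← C.map_pt' (C.B14 hz), tendsto_map'_iff]
  exact ((an_pt (C.B14 hz)).1 h).continuousAt

theorem An.act (h : An C F (g • y)) : An C (fun y => F (g • y)) y := by
  obtain ⟨γ, a, z, hz, rfl⟩ := C.exists_pt y
  rw [C.smul_pt, an_pt (C.B14 hz)] at h
  simpa only [an_pt (C.B14 hz), C.smul_pt] using h

theorem An.clm (h : An C F y) (A : H →L[ℂ] H') : An C (fun y => A (F y)) y :=
  (A.analyticAt _).comp h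

theorem An.inv (h : An C f y) (h0 : f y ≠ 0) : An C (fun y => (f y)⁻¹) y :=
  AnalyticAt.inv h (by rwa [rp_eq])

theorem eq_zero [ConnectedSpace E] (h : ∀ y ∈ Eo P, An C F y) (hy : y ∈ Eo P)
    (h0 : ∀ᶠ y' in 𝓝 y, F y' = 0) : ∀ y' ∈ Eo P, F y' = 0 :=
  Cov.HolOn.eq_zero C (fun _ _ _ hz h1 => (an_pt hz).1 (h _ h1)) (conn_Eo P).1 hy h0

/-! ### the coordinate vector fields -/

/-- the coordinates in a chart -/
def xc (P : Pol C) (a : C.I) (w : Cm n) : Cm n := P.x (C.pt 1 a w)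

/-- the coordinate vector fields in a chart -/
def eta (P : Pol C) (a : C.I) (i : Fin n) (w : Cm n) : Cm n :=
  (P.s a w ^ P.N)⁻¹ • (P.dx_pole a).choose w (Pi.single i 1)

theorem an_xc (hz : z ∈ C.B 4 a) (hs : P.s a z ≠ 0) : AnalyticAt ℂ (xc P a) z := by
  obtain ⟨X, h1, h2⟩ := P.x_pole a
  refine ((((P.s_an a z hz).pow P.N).inv (pow_ne_zero _ hs)).smul (h1 z hz)).congr
    ((ev_s hz hs).mono fun w hw => ?_)
  simp [h2 w hw.1 hw.2, smul_smul, hw.2, xc]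

theorem an_M (hz : z ∈ C.B 4 a) (v : Cm n) :
    AnalyticAt ℂ (fun w => (P.dx_pole a).choose w v) z :=
  ((ContinuousLinearMap.apply ℂ (Cm n) v).analyticAt _).comp ((P.dx_pole a).choose_spec.1 z hz)

theorem an_eta (hz : z ∈ C.B 4 a) (hs : P.s a z ≠ 0) : AnalyticAt ℂ (eta P a i) z :=
  (((P.s_an a z hz).pow P.N).inv (pow_ne_zero _ hs)).smul (an_M hz _)

theorem dx_M (hz : z ∈ C.B 4 a) (hs : P.s a z ≠ 0) (v : Cm n) :
    fderiv ℂ (xc P a) z ((P.s a z ^ P.N)⁻¹ • (P.dx_pole a).choose z v) = v := by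
  have := congrArg (fun A : Cm n →L[ℂ] Cm n => A v) ((P.dx_pole a).choose_spec.2 z hz hs)
  rw [map_smul]
  exact (congrArg _ this).trans (inv_smul_smul₀ (pow_ne_zero _ hs) v)

theorem dx_inj (hz : z ∈ C.B 4 a) (hs : P.s a z ≠ 0) : Injective (fderiv ℂ (xc P a) z) :=
  (LinearMap.injective_iff_surjective (f := (fderiv ℂ (xc P a) z : Cm n →ₗ[ℂ] Cm n))).2
    fun v => ⟨_, dx_M hz hs v⟩

theorem eta_span (hz : z ∈ C.B 4 a) (hs : P.s a z ≠ 0) (ζ : Cm n) :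
    ζ = ∑ i, fderiv ℂ (xc P a) z ζ i • eta P a i z := by
  refine dx_inj hz hs ?_
  simp only [map_sum, map_smul (fderiv ℂ (xc P a) z) (fderiv ℂ (xc P a) z ζ _), eta, dx_M hz hs]
  exact pi_eq_sum_univ' _

theorem fd_tr (h : C.Ov g a b z) (hF : AnalyticAt ℂ (fun w => F (C.pt γ b w)) (C.tr g a b z))
    (ζ : Cm n) : fderiv ℂ (fun w => F (C.pt (γ * g) a w)) z ζ =
      fderiv ℂ (fun w => F (C.pt γ b w)) (C.tr g a b z) (fderiv ℂ (C.tr g a b) z ζ) := by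
  have e : (fun w => F (C.pt (γ * g) a w)) =ᶠ[𝓝 z] (fun w => F (C.pt γ b w)) ∘ C.tr g a b :=
    (C.ev_Ov h).mono fun w hw => by simp only [comp, C.pt_tr hw]
  rw [e.fderiv_eq, fderiv_comp z hF.differentiableAt (C.an_tr h).differentiableAt]
  rfl

theorem eta_tr (h : C.Ov g a b z) (hs : P.s a z ≠ 0) :
    fderiv ℂ (C.tr g a b) z (eta P a i z) = eta P b i (C.tr g a b z) := by
  have hb : P.s b (C.tr g a b z) ≠ 0 :=
    (mem_pt (γ := 1) (C.tr_mem h)).1 (by rw [C.pt_tr h]; exact (mem_pt h.1).2 hs)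
  refine dx_inj (C.tr_mem h) hb ?_
  have := fd_tr (F := P.x) (γ := 1) h (an_xc (C.tr_mem h) hb) (eta P a i z)
  simp only [C.pt_eq (1 * g), P.x_inv] at this
  exact this.symm.trans ((dx_M h.1 hs _).trans (dx_M (C.tr_mem h) hb _).symm)

theorem eta_comm (hz : z ∈ C.B 4 a) (hs : P.s a z ≠ 0) :
    dv (eta P a i) (eta P a j) z - dv (eta P a j) (eta P a i) z = 0 := by
  have h : ∀ i j, dv (eta P a i) (dv (eta P a j) (xc P a)) z = 0 := fun i j => by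
    have : dv (eta P a j) (xc P a) =ᶠ[𝓝 z] fun _ => Pi.single j 1 :=
      (ev_s hz hs).mono fun w hw => dx_M hw.1 hw.2 _
    rw [(dv_congr this).self_of_nhds]
    simp [dv]
  refine dx_inj hz hs ?_
  rw [← dv_comm (an_xc hz hs) (an_eta hz hs) (an_eta hz hs), h, h, sub_self, map_zero]

/-- the derivative along the coordinate `x i` -/
def Dx (P : Pol C) (i : Fin n) (F : E → H) (y : E) : H :=
  dv (eta P (rp C y).2.1 i) (fun w => F (C.pt (rp C y).1 (rp C y).2.1 w)) (rp C y).2.2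

theorem Dx_congr (e : F =ᶠ[𝓝 y] G) : Dx P i F y = Dx P i G y :=
  (dv_congr (rp_ev (Q := fun y => F y = G y) e)).self_of_nhds

theorem Dx_pt (hz : z ∈ C.B 4 a) (hs : P.s a z ≠ 0) (hF : An C F (C.pt γ a z)) :
    Dx P i F (C.pt γ a z) = dv (eta P a i) (fun w => F (C.pt γ a w)) z := by
  obtain ⟨h1, h2⟩ := C.Ov_of_eq hz (rp_mem C _) (rp_eq C (C.pt γ a z)).symm
  have h3 := fd_tr (F := F) (γ := (rp C (C.pt γ a z)).1) h1 (by rw [h2]; exact hF) (eta P a i z)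
  rw [mul_inv_cancel_left, eta_tr h1 hs, h2] at h3
  exact h3.symm

theorem Dx_const (c : H) : Dx P i (fun _ => c) y = 0 := by simp [Dx, dv]

theorem Dx_add (hF : An C F y) (hG : An C G y) :
    Dx P i (fun y => F y + G y) y = Dx P i F y + Dx P i G y := by
  rw [Dx, dv, fderiv_fun_add hF.differentiableAt hG.differentiableAt]
  rfl

theorem Dx_smul (hf : An C f y) (hF : An C F y) :
    Dx P i (fun y => f y • F y) y = Dx P i f y • F y + f y • Dx P i F y := by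
  rw [Dx, dv_smul hf hF, rp_eq]
  rfl

theorem Dx_clm (hF : An C F y) (A : H →L[ℂ] H') :
    Dx P i (fun y => A (F y)) y = A (Dx P i F y) :=
  congrArg (fun B : Cm n →L[ℂ] H' => B _) (A.hasFDerivAt.comp _ hF.differentiableAt.hasFDerivAt).fderiv

theorem Dx_act (hy : y ∈ Eo P) (hF : An C F (g • y)) :
    Dx P i (fun y => F (g • y)) y = Dx P i F (g • y) := by
  have h1 := hF.act
  obtain ⟨γ, a, z, hz, hs, rfl⟩ := Eo_cases hy
  rw [C.smul_pt] at hF ⊢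
  simp only [Dx_pt hz hs hF, Dx_pt hz hs h1, C.smul_pt]

section complete
variable [CompleteSpace H]

theorem Dx_ev (hz : z ∈ C.B 4 a) (hs : P.s a z ≠ 0) (hF : An C F (C.pt γ a z)) :
    (fun w => Dx P i F (C.pt γ a w)) =ᶠ[𝓝 z] dv (eta P a i) fun w => F (C.pt γ a w) := by
  filter_upwards [ev_s hz hs, (C.ev_pt hz γ).1 hF.ev] with w w1 w2
  exact Dx_pt w1.1 w1.2 w2

theorem An.dx (hF : An C F y) (hy : y ∈ Eo P) : An C (Dx P i F) y := by
  obtain ⟨γ, a, z, hz, hs, rfl⟩ := Eo_cases hy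
  exact (an_pt hz).2 ((an_dv ((an_pt hz).1 hF) (an_eta hz hs)).congr (Dx_ev hz hs hF).symm)

theorem Dx_comm (hy : y ∈ Eo P) (hF : An C F y) : Dx P i (Dx P j F) y = Dx P j (Dx P i F) y := by
  have h1 := hF.dx (i := i) hy
  have h2 := hF.dx (i := j) hy
  obtain ⟨γ, a, z, hz, hs, rfl⟩ := Eo_cases hy
  rw [Dx_pt hz hs h1, Dx_pt hz hs h2, (dv_congr (Dx_ev hz hs hF)).self_of_nhds,
    (dv_congr (Dx_ev hz hs hF)).self_of_nhds, ← sub_eq_zero,
    dv_comm ((an_pt hz).1 hF) (an_eta hz hs) (an_eta hz hs), eta_comm hz hs, map_zero]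

end complete

/-! ### poles along `s` -/

/-- `s ^ m F` is holomorphic -/
def Pm (P : Pol C) (m : ℕ) (F : E → H) : Prop := ∀ γ a, ∃ L : Cm n → H,
  AnalyticOnNhd ℂ L (C.B 4 a) ∧ ∀ z ∈ C.B 4 a, P.s a z ≠ 0 → L z = P.s a z ^ m • F (C.pt γ a z)

/-- `F` is meromorphic with poles along `s` -/
def Pl (P : Pol C) (F : E → H) : Prop := ∃ m, Pm P m F

theorem Pl.an (h : Pl P F) (hy : y ∈ Eo P) : An C F y := by
  obtain ⟨γ, a, z, hz, hs, rfl⟩ := Eo_cases hy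
  obtain ⟨m, h⟩ := h
  obtain ⟨L, h1, h2⟩ := h γ a
  refine (an_pt hz).2 (((((P.s_an a z hz).pow m).inv (pow_ne_zero _ hs)).smul (h1 z hz)).congr
    ((ev_s hz hs).mono fun w hw => ?_))
  simp [h2 w hw.1 hw.2, smul_smul, hw.2]

theorem Pl.congr (h : Pl P F) (e : ∀ y ∈ Eo P, F y = G y) : Pl P G :=
  h.imp fun _ h γ a => (h γ a).imp fun _ hL =>
    ⟨hL.1, fun z hz hs => by rw [hL.2 z hz hs, e _ ((mem_pt hz).2 hs)]⟩

theorem Pl.const (c : H) : Pl P fun _ => c :=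
  ⟨0, fun _ _ => ⟨fun _ => c, analyticOnNhd_const, fun _ _ _ => by simp⟩⟩

theorem Pl.bil {G : E → H'} (B : H →L[ℂ] H' →L[ℂ] H'') (hF : Pl P F) (hG : Pl P G) :
    Pl P fun y => B (F y) (G y) := by
  obtain ⟨m, hF⟩ := hF
  obtain ⟨m', hG⟩ := hG
  refine ⟨m + m', fun γ a => ?_⟩
  obtain ⟨L, h1, h2⟩ := hF γ a
  obtain ⟨L', h3, h4⟩ := hG γ a
  refine ⟨fun w => B (L w) (L' w), fun z hz => (B.analyticAt_bilinear _).comp₂ (h1 z hz) (h3 z hz),
    fun z hz hs => ?_⟩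
  simp only [h2 z hz hs, h4 z hz hs, map_smul, smul_apply, smul_smul, pow_add, mul_comm]

theorem Pl.smul (hf : Pl P f) (hF : Pl P F) : Pl P fun y => f y • F y :=
  Pl.bil (ContinuousLinearMap.lsmul ℂ ℂ) hf hF

theorem Pl.clm (hF : Pl P F) (A : H →L[ℂ] H') : Pl P fun y => A (F y) :=
  Pl.bil (ContinuousLinearMap.id ℂ (H →L[ℂ] H')) (Pl.const A) hF

theorem Pl.add (hF : Pl P F) (hG : Pl P G) : Pl P fun y => F y + G y := by
  obtain ⟨m, hF⟩ := hF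
  obtain ⟨m', hG⟩ := hG
  refine ⟨m + m', fun γ a => ?_⟩
  obtain ⟨L, h1, h2⟩ := hF γ a
  obtain ⟨L', h3, h4⟩ := hG γ a
  refine ⟨fun w => P.s a w ^ m' • L w + P.s a w ^ m • L' w, fun z hz =>
    (((P.s_an a z hz).pow _).smul (h1 z hz)).add (((P.s_an a z hz).pow _).smul (h3 z hz)),
    fun z hz hs => ?_⟩
  simp only [h2 z hz hs, h4 z hz hs, smul_smul, pow_add, smul_add, mul_comm]

theorem Pl.dx [CompleteSpace H] (hF : Pl P F) (i : Fin n) : Pl P (Dx P i F) := by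
  have h0 := fun y => hF.an (y := y)
  obtain ⟨m, hF⟩ := hF
  refine ⟨m + m + P.N, fun γ a => ?_⟩
  obtain ⟨L, h1, h2⟩ := hF γ a
  set M := fun w => (P.dx_pole a).choose w (Pi.single i 1) with hM
  refine ⟨fun w => P.s a w ^ m • dv M L w - dv M (fun w => P.s a w ^ m) w • L w, fun z hz =>
    (((P.s_an a z hz).pow _).smul (an_dv (h1 z hz) (an_M hz _))).sub
      ((an_dv ((P.s_an a z hz).pow _) (an_M hz _)).smul (h1 z hz)), fun z hz hs => ?_⟩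
  have h3 := h0 _ ((mem_pt (γ := γ) hz).2 hs)
  have h4 : L =ᶠ[𝓝 z] fun w => P.s a w ^ m • F (C.pt γ a w) :=
    (ev_s hz hs).mono fun w hw => h2 w hw.1 hw.2
  have h5 := dv_smul (η := M) ((P.s_an a z hz).fun_pow m) ((an_pt hz).1 h3)
  simp only [(dv_congr h4).self_of_nhds, h5, h2 z hz hs, Dx_pt hz hs h3]
  simp only [dv, eta, map_smul, smul_smul, smul_add, hM]
  rw [pow_add _ _ P.N, mul_inv_cancel_right₀ (pow_ne_zero _ hs), pow_add, mul_comm]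
  abel

end Vale.Agent.P284Z.Cb
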