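import Vale.Agent.P284Z.C.Dx

/-! P284Z, block C: square summable families of meromorphic functions, Poincaré series. -/

open scoped Topology
open Filter Set Function

noncomputable section

namespace Vale.Agent.P284Z.Cb

open Vale.Agent.P272.K Vale.Agent.P284.H661.Lim

variable {n : ℕ} {Γ E : Type} [Group Γ] [TopologicalSpace E] [MulAction Γ E] {C : Cov n Γ E}
  {P : Pol C} {γ g : Γ} {a b : C.I} {z z' : Cm n} {y : E} {α β : Type} {u u' : α → E → ℂ}
  {f f' c : E → ℂ}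

/-- the coordinates of a meromorphic map to `ℓ²` -/
def Fam (P : Pol C) (u : α → E → ℂ) : Prop :=
  ∃ F : E → L2 α, Pl P F ∧ ∀ y ∈ Eo P, ∀ i, F y i = u i y

namespace Fam

theorem congr (h : Fam P u) (e : ∀ y ∈ Eo P, ∀ i, u i y = u' i y) : Fam P u' :=
  h.imp fun _ hF => ⟨hF.1, fun y hy i => (hF.2 y hy i).trans (e y hy i)⟩

theorem pl (h : Fam P u) (i : α) : Pl P (u i) := by
  obtain ⟨F, h1, h2⟩ := h
  exact (h1.clm (ev i)).congr fun y hy => h2 y hy i

theorem add (h : Fam P u) (h' : Fam P u') : Fam P fun i y => u i y + u' i y := by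
  obtain ⟨F, h1, h2⟩ := h
  obtain ⟨G, h3, h4⟩ := h'
  exact ⟨_, h1.add h3, fun y hy i => congrArg₂ (· + ·) (h2 y hy i) (h4 y hy i)⟩

theorem smul (hc : Pl P c) (h : Fam P u) : Fam P fun i y => c y * u i y := by
  obtain ⟨F, h1, h2⟩ := h
  exact ⟨_, hc.smul h1, fun y hy i => congrArg (c y * ·) (h2 y hy i)⟩

theorem pull (h : Fam P u) (e : β → α) (he : Injective e) : Fam P fun j => u (e j) := by
  obtain ⟨F, h1, h2⟩ := h
  exact ⟨_, h1.clm (Cb.pull e he), fun y hy i => h2 y hy _⟩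

theorem ten {v : β → E → ℂ} (h : Fam P u) (h' : Fam P v) :
    Fam P fun (q : α × β) y => u q.1 y * v q.2 y := by
  obtain ⟨F, h1, h2⟩ := h
  obtain ⟨G, h3, h4⟩ := h'
  exact ⟨_, h1.bil Cb.ten h3, fun y hy i => congrArg₂ (· * ·) (h2 y hy _) (h4 y hy _)⟩

theorem mul (h : Fam P u) (h' : Fam P u') : Fam P fun i y => u i y * u' i y :=
  (h.ten h').pull (fun i => (i, i)) fun _ _ e => congrArg Prod.fst e

theorem dx (h : Fam P u) (j : Fin n) : Fam P fun i => Dx P j (u i) := by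
  obtain ⟨F, h1, h2⟩ := h
  refine ⟨_, h1.dx j, fun y hy i => (Dx_clm (h1.an hy) (ev i)).symm.trans (Dx_congr ?_)⟩
  exact (ev_Eo hy).mono fun y' hy' => h2 y' hy' i

theorem sum {κ : Type} (s : Finset κ) {u : κ → α → E → ℂ} (h : ∀ k, Fam P (u k)) :
    Fam P fun i y => ∑ k ∈ s, u k i y := by
  classical
  induction s using Finset.induction_on with
  | empty => exact ⟨_, Pl.const 0, fun _ _ _ => rfl⟩
  | insert k s hk ih => simpa only [Finset.sum_insert hk] using (h k).add ih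

theorem prod : ∀ {N : ℕ} {u : Fin N → α → E → ℂ}, (∀ k, Fam P (u k)) →
    Fam P fun (i : Fin N → α) y => ∏ k, u k (i k) y
  | 0, _, _ => ⟨_, Pl.const (vec fun _ => 1), fun _ _ _ => by
      rw [vec_apply (mem_iff.2 (.of_finite))]; simp⟩
  | N + 1, u, h => by
    simpa only [Fin.prod_univ_succ] using ((h 0).ten (prod (u := fun k => u k.succ)
      fun k => h k.succ)).pull (fun i : Fin (N + 1) → α => (i 0, fun k => i k.succ))
      fun i j e => funext (Fin.cases (congrArg Prod.fst e) (congrFun (congrArg Prod.snd e)))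

theorem det {N : ℕ} {u : Fin N → α → E → ℂ} (h : ∀ k, Fam P (u k)) :
    Fam P fun (i : Fin N → α) y => (Matrix.of fun t t' => u t (i t') y).det := by
  simpa only [Matrix.det_apply', Matrix.of_apply] using sum Finset.univ
    fun σ : Equiv.Perm (Fin N) => (prod fun k => h (σ k)).smul (Pl.const ((σ.sign : ℤ) : ℂ))

theorem pair (h : Fam P u) (h' : Fam P u') : Pl P fun y => ∑' i, u i y * u' i y := by
  obtain ⟨F, h1, h2⟩ := h
  obtain ⟨G, h3, h4⟩ := h'
  exact (h1.bil Cb.pair h3).congr fun y hy => by simp only [pair_apply, h2 y hy, h4 y hy]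

end Fam

/-- invariant meromorphic functions -/
def IP (P : Pol C) (c : E → ℂ) : Prop := Pl P c ∧ ∀ (g : Γ), ∀ y ∈ Eo P, c (g • y) = c y

theorem IP.const (t : ℂ) : IP P fun _ => t := ⟨.const t, fun _ _ _ => rfl⟩

theorem IP.mul (h : IP P f) (h' : IP P f') : IP P fun y => f y * f' y :=
  ⟨h.1.smul h'.1, fun g y hy => by simp only [h.2 g y hy, h'.2 g y hy]⟩

theorem IP.add (h : IP P f) (h' : IP P f') : IP P fun y => f y + f' y :=
  ⟨h.1.add h'.1, fun g y hy => by simp only [h.2 g y hy, h'.2 g y hy]⟩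

theorem IP.dx (h : IP P f) (j : Fin n) : IP P (Dx P j f) :=
  ⟨h.1.dx j, fun g _ hy => (Dx_act hy (h.1.an (smul_mem hy g))).symm.trans
    (Dx_congr ((ev_Eo hy).mono (h.2 g)))⟩

theorem IP.sum {κ : Type} (s : Finset κ) {f : κ → E → ℂ} (h : ∀ k, IP P (f k)) :
    IP P fun y => ∑ k ∈ s, f k y := by
  classical
  induction s using Finset.induction_on with
  | empty => exact .const 0
  | insert k s hk ih => simpa only [Finset.sum_insert hk] using (h k).add ih

/-- functions which are square summable over the sheets -/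
def R0 (P : Pol C) (f : E → ℂ) : Prop := Fam P fun (γ : Γ) y => f (γ • y)

theorem R0.pl (h : R0 P f) : Pl P f := by simpa using Fam.pl h 1

theorem R0.smul (hc : IP P c) (h : R0 P f) : R0 P fun y => c y * f y :=
  (Fam.smul hc.1 h).congr fun y hy γ => by simp only [hc.2 γ y hy]

theorem R0.mul (h : R0 P f) (h' : R0 P f') : R0 P fun y => f y * f' y := Fam.mul h h'

theorem R0.add (h : R0 P f) (h' : R0 P f') : R0 P fun y => f y + f' y := Fam.add h h'

theorem R0.dx (h : R0 P f) (j : Fin n) : R0 P (Dx P j f) :=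
  (Fam.dx h j).congr fun _ hy γ => Dx_act hy (h.pl.an (smul_mem hy γ))

theorem R0.act (h : R0 P f) (g : Γ) : R0 P fun y => f (g • y) := by
  simpa only [R0, mul_smul] using Fam.pull h (fun γ => g * γ) (mul_right_injective g)

theorem R0.pow (h : R0 P f) : ∀ k : ℕ, R0 P fun y => f y ^ (k + 1)
  | 0 => by simpa using h
  | k + 1 => by simpa only [R0, pow_succ _ (k + 1)] using Fam.mul (h.pow k) h

theorem R0.ser (h : R0 P f) (h' : R0 P f') : IP P fun y => ∑' γ : Γ, f (γ • y) * f' (γ • y) :=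
  ⟨Fam.pair h h', fun g y _ => by
    simpa only [← mul_smul, Equiv.coe_mulRight] using
      (Equiv.mulRight g).tsum_eq fun γ => f (γ • y) * f' (γ • y)⟩

/-- an invariant quotient is a quotient of invariant functions -/
theorem exists_inv (h : R0 P f) (h' : R0 P f') (h0 : ∃ y ∈ Eo P, f' y ≠ 0)
    (e : ∀ (g : Γ), ∀ y ∈ Eo P, f (g • y) * f' y = f y * f' (g • y)) :
    ∃ δ β : E → ℂ, IP P δ ∧ IP P β ∧ (∃ y ∈ Eo P, δ y ≠ 0) ∧
      ∀ y ∈ Eo P, δ y * f y = β y * f' y := by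
  obtain ⟨y, hy, h1⟩ := h0
  obtain ⟨F, -, h2⟩ := id h'
  obtain ⟨k, hk⟩ := pow_sum (x := F y) fun h3 => h1 (by simpa [h3] using (h2 y hy 1).symm)
  refine ⟨_, _, (h'.pow k).ser h', (h'.pow k).ser h, ⟨y, hy, ?_⟩, fun y hy => ?_⟩
  · simpa only [← pow_succ, ← h2 y hy] using hk
  · rw [← tsum_mul_right, ← tsum_mul_right]
    exact tsum_congr fun g => by rw [mul_assoc, mul_assoc, e g y hy, mul_comm (f y)]

/-! ### equivariant families -/

variable {J : IX Γ} {m : ℕ} {w w' : J.ι → E → ℂ}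

theorem smul_inj (i : J.ι) : Injective fun γ : Γ => γ⁻¹ • i := fun _ _ e =>
  inv_injective (mul_right_cancel ((J.pos_smul _ i).symm.trans
    ((congrArg J.pos e).trans (J.pos_smul _ i))))

/-- equivariant families -/
def GF (P : Pol C) (w : J.ι → E → ℂ) : Prop :=
  Fam P w ∧ ∀ (g : Γ), ∀ y ∈ Eo P, ∀ i, w (g • i) (g • y) = w i y

theorem GF.r0 (h : GF P w) (i : J.ι) : R0 P (w i) :=
  (h.1.pull _ (smul_inj i)).congr fun y hy γ => by rw [← h.2 γ y hy, smul_inv_smul]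

theorem GF.add (h : GF P w) (h' : GF P w') : GF P fun i y => w i y + w' i y :=
  ⟨h.1.add h'.1, fun g y hy i => by simp only [h.2 g y hy, h'.2 g y hy]⟩

theorem GF.smul (hc : IP P c) (h : GF P w) : GF P fun i y => c y * w i y :=
  ⟨h.1.smul hc.1, fun g y hy i => by simp only [h.2 g y hy, hc.2 g y hy]⟩

theorem GF.dx (h : GF P w) (j : Fin n) : GF P fun i => Dx P j (w i) :=
  ⟨h.1.dx j, fun g _ hy i => (Dx_act hy ((h.1.pl _).an (smul_mem hy g))).symm.trans
    (Dx_congr ((ev_Eo hy).mono fun y' hy' => h.2 g y' hy' i))⟩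

theorem GF.sum {κ : Type} (s : Finset κ) {w : κ → J.ι → E → ℂ} (h : ∀ k, GF P (w k)) :
    GF P fun i y => ∑ k ∈ s, w k i y :=
  ⟨.sum s fun k => (h k).1, fun g y hy i => Finset.sum_congr rfl fun k _ => (h k).2 g y hy i⟩

theorem GF.sec (h : GF P w) : ∃ (m : ℕ) (V : HSec P J m), ∀ y ∈ Eo P, ∀ i, V.F y i = w i y := by
  obtain ⟨⟨F, ⟨m, h1⟩, h2⟩, h3⟩ := h
  choose L h4 h5 using h1 1
  exact ⟨m, ⟨F, L, h4, h5, fun g y i hy => by
    rw [h2 _ (smul_mem hy g), h2 y hy, h3 g y hy]⟩, h2⟩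

variable (V : HSec P J m)

theorem val_eq (hz : z ∈ C.B 4 a) (hs : P.s a z ≠ 0) (i : J.ι) :
    V.val γ a z i = P.s a z ^ m * V.F (C.pt γ a z) i := by
  rw [HSec.val, V.eq a z hz hs, C.pt_eq γ, ← smul_inv_smul γ i,
    V.eqv γ _ _ ((mem_pt hz).2 hs), inv_smul_smul]
  rfl

theorem sec_pl : Pl P V.F :=
  ⟨m, fun γ a => ⟨fun w => pull _ (MulAction.injective γ⁻¹) (V.L a w), fun z hz =>
    (ContinuousLinearMap.analyticAt _ _).comp (V.an a z hz),
    fun _ hz hs => lp.ext (funext fun i => val_eq V hz hs i)⟩⟩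

theorem sec_gf : GF P fun i y => V.F y i :=
  ⟨⟨_, sec_pl V, fun _ _ _ => rfl⟩, fun g y hy i => V.eqv g y i hy⟩

theorem val_cont (hz : z ∈ C.B 4 a) (i : J.ι) : ContinuousAt (fun w => V.val γ a w i) z :=
  (ev (γ⁻¹ • i)).continuous.continuousAt.comp (V.an a z hz).continuousAt

theorem val_ch (hz : z ∈ C.B 4 a) (hz' : z' ∈ C.B 4 b) (h : C.pt γ a z = C.pt g b z') :
    ∃ t : ℂ, t ≠ 0 ∧ ∀ i, V.val γ a z i = t * V.val g b z' i := by
  obtain ⟨h1, rfl⟩ := C.Ov_of_eq hz hz' h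
  obtain ⟨G, g1, g2, g3⟩ := P.s_ch _ a b z h1
  refine ⟨G z ^ m, pow_ne_zero _ g2, fun i => ext_s (P := P) hz (val_cont V hz i)
    ((g1.continuousAt.pow m).mul ((val_cont V hz' i).comp (C.an_tr h1).continuousAt)) ?_⟩
  filter_upwards [g3, C.ev_Ov h1] with w w1 w2 w3 w4
  have w5 : P.s b (C.tr (g⁻¹ * γ) a b w) ≠ 0 := fun e => w4 (by rw [w1.1, e, mul_zero])
  simp only [Pi.mul_apply, Pi.pow_apply, comp, val_eq V w3 w4, val_eq V (C.tr_mem w2) w5,
    C.pt_tr w2, mul_inv_cancel_left, w1.1, mul_pow, mul_assoc]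

end Vale.Agent.P284Z.Cb
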