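import Vale.Agent.P284Z.C.Fam

/-! P284Z, block C: the differential field of quotients of square summable functions. -/

open scoped Topology
open Filter Set Function

noncomputable section

namespace Vale.Agent.P284Z.Cb

open Vale.Agent.P272.K Vale.Agent.P284.H661.Lim

/-- sets which contain a dense open set -/
def gen (E : Type) [TopologicalSpace E] : Filter E where
  sets := {S | Dense (interior S)}
  univ_sets := by simp
  sets_of_superset h e := Dense.mono (interior_mono e) h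
  inter_sets h h' := by
    rw [mem_ofPred_eq, interior_inter]
    exact Dense.inter_of_isOpen_left h h' isOpen_interior

variable {n : ℕ} {Γ E : Type} [Group Γ] [TopologicalSpace E] [MulAction Γ E] {C : Cov n Γ E}
  {P : Pol C} {y : E} {f f' a b : E → ℂ} {Q : E → Prop}

theorem gen_ev (h : ∀ᶠ y in gen E, Q y) : ∀ᶠ y in gen E, ∀ᶠ y' in 𝓝 y, Q y' :=
  Dense.mono (interior_maximal (fun _ => mem_interior_iff_mem_nhds.1) isOpen_interior) h

theorem gen_freq (h : ∀ᶠ y in gen E, Q y) (y : E) : ∃ᶠ y' in 𝓝 y, Q y' :=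
  (mem_closure_iff_frequently.1 (Dense.mono interior_subset h y))

theorem gen_of (h : ∀ y, ∃ᶠ y' in 𝓝 y, ∀ᶠ y'' in 𝓝 y', Q y'') : ∀ᶠ y in gen E, Q y := fun y =>
  mem_closure_iff_frequently.2 ((h y).mono fun _ => mem_interior_iff_mem_nhds.2)

instance [Nonempty E] : (gen E).NeBot :=
  ⟨fun h => (gen_freq (Q := fun _ => False) (by simp [h]) (Classical.arbitrary E)).exists.elim
    fun _ => id⟩

theorem gen_act (C : Cov n Γ E) (g : Γ) : Tendsto (fun y : E => g • y) (gen E) (gen E) :=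
  fun S hS => gen_of fun y => by
    have h := gen_freq (gen_ev (Q := fun y => y ∈ S) hS) (g • y)
    rw [← C.map_deck, frequently_map] at h
    exact h.mono fun y' hy' => by rwa [← C.map_deck, eventually_map] at hy'

theorem eq_of_gen (e : f =ᶠ[gen E] f') (h : An C f y) (h' : An C f' y) : f y = f' y :=
  tendsto_nhds_unique_of_frequently_eq h.cont h'.cont (gen_freq e y)

variable [ConnectedSpace E]

theorem gen_ne (h : Pl P f) (h0 : ∃ y ∈ Eo P, f y ≠ 0) : ∀ᶠ y in gen E, y ∈ Eo P ∧ f y ≠ 0 := by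
  refine gen_of fun y => fun h1 => ?_
  obtain ⟨y', h2, h3⟩ := ((mem_closure_iff_frequently.1 ((conn_Eo P).2 y)).and_eventually
    h1.eventually_nhds).exists
  obtain ⟨y₀, h4, h5⟩ := h0
  refine h5 (eq_zero (fun _ => h.an) h2 ?_ y₀ h4)
  filter_upwards [h3, ev_Eo h2] with u u1 u2
  by_contra u3
  exact u1 ((ev_Eo u2).and ((h.an u2).cont.eventually_ne u3))

theorem gen_Eo (P : Pol C) : ∀ᶠ y in gen E, y ∈ Eo P :=
  (gen_ne (f := fun _ => 1) (.const 1) ((conn_Eo P).2.nonempty.imp fun _ h => ⟨h, one_ne_zero⟩)).mono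
    fun _ h => h.1

/-- nonzero square summable functions -/
def NZ (P : Pol C) (b : E → ℂ) : Prop := R0 P b ∧ ∃ y ∈ Eo P, b y ≠ 0

theorem NZ.gen (h : NZ P b) : ∀ᶠ y in gen E, y ∈ Eo P ∧ b y ≠ 0 := gen_ne h.1.pl h.2

theorem NZ.mul (h : NZ P a) (h' : NZ P b) : NZ P fun y => a y * b y :=
  ⟨Fam.mul h.1 h'.1, (h.gen.and h'.gen).exists.imp fun _ h => ⟨h.1.1, mul_ne_zero h.1.2 h.2.2⟩⟩

/-- quotients -/
def Qt (P : Pol C) (f : E → ℂ) : Prop :=
  ∃ a b, R0 P a ∧ NZ P b ∧ f =ᶠ[gen E] fun y => a y / b y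

theorem Qt.an (h : Qt P f) : ∀ᶠ y in gen E, y ∈ Eo P ∧ An C f y := by
  obtain ⟨a, b, h1, h2, h3⟩ := h
  filter_upwards [h2.gen, gen_ev h3] with y y1 y2
  exact ⟨y1.1, An.congr (F := fun y => a y * (b y)⁻¹) (AnalyticAt.mul (h1.pl.an y1.1)
    ((h2.1.pl.an y1.1).inv y1.2)) (y2.mono fun u hu => by rw [hu, div_eq_mul_inv])⟩

theorem Qt.of_mul (h : NZ P b) (h' : R0 P fun y => f y * b y) : Qt P f :=
  ⟨_, b, h', h, h.gen.mono fun y hy => by simp [hy.2]⟩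

theorem Qt.dx (h : Qt P f) (i : Fin n) : Qt P (Dx P i f) := by
  have h0 := h.an
  obtain ⟨a, b, h1, h2, h3⟩ := h
  refine ⟨_, _, ((h1.dx i).mul h2.1).add ((h1.mul (h2.1.dx i)).smul (.const (-1))), h2.mul h2, ?_⟩
  filter_upwards [gen_ev (h3.and h2.gen), h0] with y y1 y2
  have e1 := Dx_congr (P := P) (i := i) (F := a) (G := fun y => f y • b y)
    (y1.mono fun u hu => by simp [hu.1, hu.2.2])
  obtain ⟨e2, -, e3⟩ := y1.self_of_nhds
  rw [Dx_smul y2.2 (h2.1.pl.an y2.1), e2, smul_eq_mul, smul_eq_mul] at e1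
  rw [e1]
  field_simp
  ring

variable (h0 : ∃ b, NZ P b)

/-- the field, as a ring of germs -/
def KS : Subring (Germ (gen E) ℂ) where
  carrier := {φ | ∃ f, Qt P f ∧ φ = f}
  mul_mem' := by
    rintro _ _ ⟨f, ⟨a, b, h1, h2, h3⟩, rfl⟩ ⟨g, ⟨c, d, h4, h5, h6⟩, rfl⟩
    refine ⟨f * g, ⟨_, _, h1.mul h4, h2.mul h5, ?_⟩, rfl⟩
    filter_upwards [h3, h6] with y y1 y2
    rw [Pi.mul_apply, y1, y2, div_mul_div_comm]
  one_mem' := h0.elim fun b hb => ⟨1, .of_mul hb (by simpa using hb.1), rfl⟩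
  add_mem' := by
    rintro _ _ ⟨f, ⟨a, b, h1, h2, h3⟩, rfl⟩ ⟨g, ⟨c, d, h4, h5, h6⟩, rfl⟩
    refine ⟨f + g, ⟨_, _, (h1.mul h5.1).add (h2.1.mul h4), h2.mul h5, ?_⟩, rfl⟩
    filter_upwards [h3, h6, h2.gen, h5.gen] with y y1 y2 y3 y4
    rw [Pi.add_apply, y1, y2, div_add_div _ _ y3.2 y4.2]
  zero_mem' := h0.elim fun b hb => ⟨0, .of_mul hb (hb.1.smul (.const 0)), rfl⟩
  neg_mem' := by
    rintro _ ⟨f, ⟨a, b, h1, h2, h3⟩, rfl⟩
    refine ⟨-f, ⟨_, _, h1.smul (.const (-1)), h2, h3.mono fun y hy => ?_⟩, rfl⟩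
    simp [hy, neg_div]

theorem isField : IsField (KS h0) where
  exists_pair_ne := exists_pair_ne _
  mul_comm := mul_comm
  mul_inv_cancel := by
    rintro ⟨_, f, ⟨a, b, h1, h2, h3⟩, rfl⟩ h
    have h4 : NZ P a := ⟨h1, by
      by_contra! h4
      refine h (Subtype.ext (Germ.coe_eq.2 ?_))
      filter_upwards [h3, h2.gen] with y y1 y2
      simp [y1, h4 y y2.1]⟩
    refine ⟨⟨_, _, ⟨b, a, h2.1, h4, .rfl⟩, rfl⟩, Subtype.ext (Germ.coe_eq.2 ?_)⟩
    filter_upwards [h3, h2.gen, h4.gen] with y y1 y2 y3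
    simp [y1, y2.2, y3.2]

/-- the field -/
def K : Type := KS h0

theorem exists_fld : ∃ _ : Field (K h0), ∃ c : K h0 →+* Germ (gen E) ℂ, ∀ φ, c φ = φ.1 :=
  ⟨(isField h0).toField, (KS h0).subtype, fun _ => rfl⟩

instance : Field (K h0) := (exists_fld h0).choose

/-- the inclusion in the ring of germs -/
def cK : K h0 →+* Germ (gen E) ℂ := (exists_fld h0).choose_spec.choose

theorem cK_eq (φ : K h0) : cK h0 φ = φ.1 := (exists_fld h0).choose_spec.choose_spec φ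

theorem cK_inj : Injective (cK h0) := (cK h0).injective

instance : CharZero (K h0) :=
  ⟨fun k l e => by
    have := congrArg (cK h0) e
    rw [map_natCast, map_natCast] at this
    exact Nat.cast_injective (R := ℂ) (Germ.const_inj.1 this)⟩

variable {h0} {φ ψ : K h0}

/-- `f` represents `φ` -/
def Rp (φ : K h0) (f : E → ℂ) : Prop := cK h0 φ = Germ.coeRingHom (gen E) f

theorem ex_rp (φ : K h0) : ∃ f, Qt P f ∧ Rp φ f :=
  φ.2.imp fun _ h => ⟨h.1, (cK_eq h0 φ).trans h.2⟩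

theorem Qt.ex (h0 : ∃ b, NZ P b) (h : Qt P f) : ∃ φ : K h0, Rp φ f :=
  ⟨⟨f, f, h, rfl⟩, cK_eq h0 _⟩

theorem R0.ex (h0 : ∃ b, NZ P b) (h : R0 P f) : ∃ φ : K h0, Rp φ f :=
  h0.elim fun _ hb => (Qt.of_mul hb (Fam.mul h hb.1)).ex h0

theorem IP.ex (h0 : ∃ b, NZ P b) (h : IP P f) : ∃ φ : K h0, Rp φ f :=
  h0.elim fun _ hb => (Qt.of_mul hb (hb.1.smul h)).ex h0

namespace Rp

theorem eq (h : Rp φ f) (h' : Rp φ f') : f =ᶠ[gen E] f' := Germ.coe_eq.1 (h.symm.trans h')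

theorem congr (h : Rp φ f) (e : f =ᶠ[gen E] f') : Rp φ f' := h.trans (Germ.coe_eq.2 e)

theorem ext (h : Rp φ f) (h' : Rp ψ f) : φ = ψ := cK_inj h0 (h.trans h'.symm)

theorem qt (h : Rp φ f) : Qt P f := by
  obtain ⟨g, ⟨a, b, h1, h2, h3⟩, h4⟩ := ex_rp φ
  exact ⟨a, b, h1, h2, (h.eq h4).trans h3⟩

theorem add (h : Rp φ f) (h' : Rp ψ f') : Rp (φ + ψ) fun y => f y + f' y :=
  (map_add _ _ _).trans ((congrArg₂ _ h h').trans (map_add _ f f').symm)

theorem mul (h : Rp φ f) (h' : Rp ψ f') : Rp (φ * ψ) fun y => f y * f' y :=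
  (map_mul _ _ _).trans ((congrArg₂ _ h h').trans (map_mul _ f f').symm)

theorem zero : Rp (0 : K h0) fun _ => 0 := map_zero _

theorem one : Rp (1 : K h0) fun _ => 1 := map_one _

theorem neg_one : Rp (-1 : K h0) fun _ => -1 := (map_neg _ _).trans (congrArg _ (map_one _))

theorem sum {κ : Type} (s : Finset κ) {φ : κ → K h0} {f : κ → E → ℂ} (h : ∀ k, Rp (φ k) (f k)) :
    Rp (∑ k ∈ s, φ k) fun y => ∑ k ∈ s, f k y := by
  rw [Rp, map_sum, ← Finset.sum_fn, map_sum]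
  exact Finset.sum_congr rfl fun k _ => h k

theorem prod {κ : Type} (s : Finset κ) {φ : κ → K h0} {f : κ → E → ℂ} (h : ∀ k, Rp (φ k) (f k)) :
    Rp (∏ k ∈ s, φ k) fun y => ∏ k ∈ s, f k y := by
  rw [Rp, map_prod, ← Finset.prod_fn, map_prod]
  exact Finset.prod_congr rfl fun k _ => h k

theorem det {κ : Type} [Fintype κ] [DecidableEq κ] {φ : κ → κ → K h0} {f : κ → κ → E → ℂ}
    (h : ∀ k l, Rp (φ k l) (f k l)) :
    Rp (Matrix.of φ).det fun y => (Matrix.of fun k l => f k l y).det := by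
  have e : (fun y => (Matrix.of fun k l => f k l y).det) = (Matrix.of f).det :=
    funext fun y => ((Pi.evalRingHom (fun _ => ℂ) y).map_det (Matrix.of f)).symm
  rw [Rp, e, RingHom.map_det, RingHom.map_det]
  exact congrArg _ (Matrix.ext h)

theorem ne (h : Rp φ f) (h1 : φ ≠ 0) : ∀ᶠ y in gen E, f y ≠ 0 := by
  obtain ⟨g, -, h2⟩ := ex_rp φ⁻¹
  have := h.mul h2
  rw [mul_inv_cancel₀ h1] at this
  exact (this.eq one).mono fun y hy e => by simp [e] at hy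

theorem ne_zero (h : Rp φ f) (h1 : ∀ᶠ y in gen E, f y ≠ 0) : φ ≠ 0 := by
  rintro rfl
  exact (h1.and (h.eq zero)).exists.elim fun _ h => h.1 h.2

theorem inv (h : Rp φ f) (h1 : φ ≠ 0) : Rp φ⁻¹ fun y => (f y)⁻¹ := by
  obtain ⟨g, -, h2⟩ := ex_rp φ⁻¹
  have := h.mul h2
  rw [mul_inv_cancel₀ h1] at this
  exact h2.congr ((this.eq one).mono fun y hy => eq_inv_of_mul_eq_one_right hy)

theorem dx (h : Rp φ f) (h' : Rp φ f') (i : Fin n) : Dx P i f =ᶠ[gen E] Dx P i f' :=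
  (gen_ev (h.eq h')).mono fun _ => Dx_congr

end Rp

/-- the derivative -/
def dK (i : Fin n) (φ : K h0) : K h0 := (((ex_rp φ).choose_spec.1.dx i).ex h0).choose

theorem Rp.dK (h : Rp φ f) (i : Fin n) : Rp (dK i φ) (Dx P i f) :=
  (((ex_rp φ).choose_spec.1.dx i).ex h0).choose_spec.congr ((ex_rp φ).choose_spec.2.dx h i)

variable (h0) in
/-- the derivations -/
def DK : Der (K h0) n where
  d i := AddMonoidHom.mk' (dK i) fun φ ψ => by
    obtain ⟨f, f1, f2⟩ := ex_rp φ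
    obtain ⟨g, g1, g2⟩ := ex_rp ψ
    refine ((f2.add g2).dK i).ext (((f2.dK i).add (g2.dK i)).congr ?_)
    filter_upwards [f1.an, g1.an] with y y1 y2
    exact (Dx_add y1.2 y2.2).symm
  mul i φ ψ := by
    obtain ⟨f, f1, f2⟩ := ex_rp φ
    obtain ⟨g, g1, g2⟩ := ex_rp ψ
    refine ((f2.mul g2).dK i).ext ((((f2.dK i).mul g2).add (f2.mul (g2.dK i))).congr ?_)
    filter_upwards [f1.an, g1.an] with y y1 y2
    exact (Dx_smul y1.2 y2.2).symm
  comm i j φ := by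
    obtain ⟨f, f1, f2⟩ := ex_rp φ
    exact ((f2.dK j).dK i).ext (((f2.dK i).dK j).congr (f1.an.mono fun y hy => Dx_comm hy.1 hy.2))

theorem Rp.d (h : Rp φ f) (i : Fin n) : Rp ((DK h0).d i φ) (Dx P i f) := h.dK i

theorem Qt.act (h : Qt P f) (g : Γ) : Qt P fun y => f (g • y) := by
  obtain ⟨a, b, h1, h2, h3⟩ := h
  exact ⟨_, _, h1.act g, ⟨h2.1.act g, (((gen_act C g).eventually h2.gen).and (gen_Eo P)).exists.imp
    fun _ h => ⟨h.2, h.1.2⟩⟩, (gen_act C g).eventually h3⟩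

/-- the translation -/
def tK (g : Γ) (φ : K h0) : K h0 := (((ex_rp φ).choose_spec.1.act g).ex h0).choose

theorem Rp.tK (h : Rp φ f) (g : Γ) : Rp (tK g φ) fun y => f (g • y) :=
  (((ex_rp φ).choose_spec.1.act g).ex h0).choose_spec.congr
    ((gen_act C g).eventually ((ex_rp φ).choose_spec.2.eq h))

variable (h0) in
/-- the translation as a homomorphism -/
def TK (g : Γ) : K h0 →+* K h0 where
  toFun := tK g
  map_one' := (Rp.one.tK g).ext .one
  map_zero' := (Rp.zero.tK g).ext .zero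
  map_mul' φ ψ := by
    obtain ⟨f, -, f2⟩ := ex_rp φ
    obtain ⟨f', -, g2⟩ := ex_rp ψ
    exact ((f2.mul g2).tK g).ext ((f2.tK g).mul (g2.tK g))
  map_add' φ ψ := by
    obtain ⟨f, -, f2⟩ := ex_rp φ
    obtain ⟨f', -, g2⟩ := ex_rp ψ
    exact ((f2.add g2).tK g).ext ((f2.tK g).add (g2.tK g))

theorem Rp.T (h : Rp φ f) (g : Γ) : Rp (TK h0 g φ) fun y => f (g • y) := h.tK g

theorem T_d (g : Γ) (i : Fin n) (φ : K h0) : TK h0 g ((DK h0).d i φ) = (DK h0).d i (TK h0 g φ) := by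
  obtain ⟨f, f1, f2⟩ := ex_rp φ
  refine ((f2.d i).T g).ext (((f2.T g).d i).congr ?_)
  filter_upwards [gen_Eo P, (gen_act C g).eventually f1.an] with y y1 y2
  exact Dx_act y1 y2.2

/-- denominators of invariant elements -/
theorem exists_den (h : ∀ g, TK h0 g φ = φ) : ∃ (δ : K h0) (δ' β : E → ℂ), δ ≠ 0 ∧ IP P δ' ∧
    IP P β ∧ Rp δ δ' ∧ Rp (δ * φ) β := by
  obtain ⟨f, ⟨a, b, h1, h2, h3⟩, h4⟩ := ex_rp φ
  obtain ⟨δ', β, d1, d2, d3, d4⟩ := exists_inv h1 h2.1 h2.2 fun g y hy => by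
    refine eq_of_gen (C := C) (f := fun y => a (g • y) * b y) (f' := fun y => a y * b (g • y)) ?_
      (AnalyticAt.mul ((h1.act g).pl.an hy) (h2.1.pl.an hy))
      (AnalyticAt.mul (h1.pl.an hy) ((h2.1.act g).pl.an hy))
    filter_upwards [h4.eq (h g ▸ h4.T g), h3, h2.gen, (gen_act C g).eventually (h3.and h2.gen)]
      with u u1 u2 u3 u4
    rw [u2, u4.1, div_eq_div_iff u3.2 u4.2.2] at u1
    exact u1.symm
  obtain ⟨δ, hδ⟩ := d1.ex h0
  refine ⟨δ, δ', β, hδ.ne_zero ((gen_ne d1.1 d3).mono fun _ h => h.2), d1, d2, hδ,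
    (hδ.mul h4).congr ?_⟩
  filter_upwards [h3, h2.gen] with y y1 y2
  rw [y1, ← mul_div_assoc, d4 y y2.1, mul_div_cancel_right₀ _ y2.2]

end Vale.Agent.P284Z.Cb
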