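import Vale.Agent.P284Z.C.Alg
import Vale.Agent.P284Z.Spec

/-! P284Z, block C: the datum `V`. -/

open scoped Topology
open Filter Set Function Submodule

noncomputable section

namespace Vale.Agent.P284Z.Cb

open Vale.Agent.P272.K Vale.Agent.P284.H661.Lim

variable {n : ℕ} {Γ E : Type} [Group Γ] [TopologicalSpace E] [MulAction Γ E] {C : Cov n Γ E}
  {P : Pol C} [ConnectedSpace E] {h0 : ∃ b, NZ P b} {δ : K h0} {J : IX Γ} {m d p : ℕ}
  (V : HSec P J m) {u : J.ι → K h0} {a : C.I} {z : Cm n} {y : E}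

theorem fr_gen (hu : ∀ i, Rp (u i) fun y => V.F y i) (e : Fin d ⊕ Fin p ≃ Fin n)
    {B : Fin d → Fin p → K h0} (hδ : δ ≠ 0) (hc : ∀ l j, IK (δ * leafVF e B l j))
    (hμ : ∀ l, ∃ μ, ∀ i, δ * (DK h0).vf (leafVF e B l) (u i) = μ * u i) :
    ∀ᶠ y in gen E, ∀ a, ∀ z ∈ C.B 4 a, y = C.pt 1 a z →
      ∃ X : Fin d → Cm n → Cm n, Fr (V.L a) z X fun k => eta P a (e (.inr k)) z := by
  choose c c1 c2 using hc
  choose μ hμ using hμ
  choose μ' q1 q2 using fun l => ex_rp (μ l)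
  have key : ∀ l, ∀ y ∈ Eo P, An C (μ' l) y → ∑ j, c l j y • Dx P j V.F y = μ' l y • V.F y := by
    intro l y hy h
    refine lp.ext (funext fun i => ?_)
    have h1 := (sec_gf V).1.pl i
    have h2 := Rp.sum Finset.univ fun j => (c2 l j).mul ((hu i).d j)
    simp only [mul_assoc, ← Finset.mul_sum] at h2
    have h4 := (q2 l).mul (hu i)
    rw [← hμ l i] at h4
    have h3 := eq_of_gen (C := C) (h2.eq h4)
      (Finset.analyticAt_fun_sum _ fun j _ => AnalyticAt.mul ((c1 l j).1.an hy) ((h1.dx j).an hy))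
      (AnalyticAt.mul h (h1.an hy))
    refine Eq.trans (map_sum (ev i) _ _) (Eq.trans (Finset.sum_congr rfl fun j _ => ?_) h3)
    rw [map_smul, ← Dx_clm ((sec_pl V).an hy)]
    rfl
  have g1 : ∀ᶠ y in gen E, ∀ l, An C (μ' l) y :=
    eventually_all.2 fun l => (q1 l).an.mono fun _ h => h.2
  have g2 : ∀ᶠ y in gen E, ∀ l, c l (e (.inl l)) y ≠ 0 :=
    eventually_all.2 fun l => (c2 l _).ne (by simpa [leafVF] using hδ)
  have g3 : ∀ᶠ y in gen E, ∀ l l', l' ≠ l → c l (e (.inl l')) y = 0 :=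
    eventually_all.2 fun l => eventually_all.2 fun l' => eventually_imp_distrib_left.2 fun h =>
      (c2 l _).eq (by simpa [leafVF, h] using Rp.zero)
  filter_upwards [g1, g2, g3, gen_Eo P]
  rintro _ y1 y2 y3 hy a z hz rfl
  have hs := (mem_pt hz).1 hy
  have hV := (sec_pl V).an hy
  refine ⟨fun l w => ∑ j, c l j (C.pt 1 a w) • eta P a j w, Fr.smul (L := fun w => V.F (C.pt 1 a w))
    ⟨(an_pt hz).1 hV, fun l => Finset.analyticAt_fun_sum _ fun j _ =>
      ((an_pt hz).1 ((c1 l j).1.an hy)).fun_smul (an_eta hz hs), fun l => ⟨_, (an_pt hz).1 (y1 l), ?_⟩,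
      fun ζ => ?_⟩ ((P.s_an a z hz).fun_pow m) (pow_ne_zero _ hs)
    ((ev_s hz hs).mono fun w hw => V.eq a w hw.1 hw.2)⟩
  · filter_upwards [ev_s hz hs, (C.ev_pt hz 1).1 (y1 l).ev] with w w1 w2
    have w3 := (mem_pt (γ := 1) w1.1).2 w1.2
    rw [← key l _ w3 w2]
    simp only [Dx_pt w1.1 w1.2 ((sec_pl V).an w3), dv, map_sum, map_smul]
  · set X := fun l => ∑ j, c l j (C.pt 1 a z) • eta P a j z with hX
    set ξ := fun k => eta P a (e (.inr k)) z with hξ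
    have h1 : ∀ k, ξ k ∈ span ℂ (range X) ⊔ span ℂ (range ξ) := fun k =>
      mem_sup_right (subset_span ⟨k, rfl⟩)
    have h2 : ζ ∈ span ℂ (range X) ⊔ span ℂ (range ξ) := by
      rw [eta_span hz hs ζ]
      refine sum_mem fun j _ => Submodule.smul_mem _ _ ?_
      obtain ⟨l | k, rfl⟩ := e.surjective j
      · have h3 : X l ∈ span ℂ (range X) ⊔ span ℂ (range ξ) := mem_sup_left (subset_span ⟨l, rfl⟩)
        rw [show X l = _ from (e.sum_comp _).symm, Fintype.sum_sum_type,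
          Finset.sum_eq_single l (fun l' _ h => by rw [y3 l l' h, zero_smul]) (by simp)] at h3
        exact (smul_mem_iff _ (y2 l)).1 ((add_mem_cancel_right
          (sum_mem fun k _ => Submodule.smul_mem _ _ (h1 k))).1 h3)
      · exact h1 k
    obtain ⟨x, hx, x', hx', rfl⟩ := mem_sup.1 h2
    obtain ⟨s, rfl⟩ := (mem_span_range_iff_exists_fun ℂ).1 hx
    obtain ⟨t, rfl⟩ := (mem_span_range_iff_exists_fun ℂ).1 hx'
    exact ⟨s, t, rfl⟩

/-- iterated derivatives -/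
def Dw (P : Pol C) (L : List (Fin n)) (F : E → J.H) : E → J.H :=
  L.foldr (fun i G => Dx P i G) F

omit [ConnectedSpace E] in
theorem an_Dw {F : E → J.H} (hy : y ∈ Eo P) (hF : An C F y) :
    ∀ L : List (Fin n), An C (Dw P L F) y
  | [] => hF
  | _ :: L => (an_Dw hy hF L).dx hy

theorem rp_Dw {F : E → J.H} (hF : ∀ᶠ y in gen E, y ∈ Eo P ∧ An C F y)
    (hu : ∀ i, Rp (u i) fun y => F y i) (i : J.ι) : ∀ L : List (Fin n),
    Rp (L.foldr (fun j g => (DK h0).d j g) (u i)) fun y => Dw P L F y i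
  | [] => hu i
  | j :: L => ((rp_Dw hF hu i L).d j).congr
    (hF.mono fun _ hy => Dx_clm (an_Dw hy.1 hy.2 L) (ev i))

omit [ConnectedSpace E] in
theorem mo_Dw {F : E → J.H} {L : Cm n → J.H} {X : Fin d → Cm n → Cm n} {ξ : Fin p → Cm n}
    (h : Fr L z X ξ) (hz : z ∈ C.B 4 a) (hs : P.s a z ≠ 0) (hF : An C F (C.pt 1 a z))
    (h1 : Mo z (Sj L ξ 0) fun w => F (C.pt 1 a w)) :
    ∀ l : List (Fin n), Mo z (Sj L ξ l.length) fun w => Dw P l F (C.pt 1 a w)
  | [] => h1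
  | _ :: l => (h.der (an_eta hz hs) (mo_Dw h hz hs hF h1 l)).congr
    (Dx_ev hz hs (an_Dw ((mem_pt hz).2 hs) hF l)).symm

theorem jets_of (hδ : δ ≠ 0) (h1 : IK δ) (hu : ∀ i, Rp (δ * u i) fun y => V.F y i)
    (e : Fin p → Fin n) (hF : ∀ᶠ y in gen E, ∀ a, ∀ z ∈ C.B 4 a, y = C.pt 1 a z →
      ∃ X : Fin d → Cm n → Cm n, Fr (V.L a) z X fun k => eta P a (e k) z) (j : ℕ)
    (hi : LinearIndependent (K h0) fun (α : Idx p j) i => (DK h0).dd e α.1 (u i)) :
    ∃ a, ∃ z ∈ C.B 4 a, ∃ ξ : Fin p → Cm n,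
      LinearIndependent ℂ fun α : Idx p j => jet (V.L a) z ξ α.1 := by
  classical
  have := Fintype.ofFinite (Idx p j)
  obtain ⟨c, c1, c2⟩ := h1
  obtain ⟨s, hs⟩ := exists_minor hi
  have g1 : ∀ᶠ y in gen E, y ∈ Eo P ∧ An C (fun y => (c y)⁻¹ • V.F y) y := by
    filter_upwards [gen_Eo P, c2.ne hδ] with y y1 y2
    exact ⟨y1, AnalyticAt.smul ((c1.1.an y1).inv y2) ((sec_pl V).an y1)⟩
  have g2 := (Rp.det fun α β : Idx p j => rp_Dw g1 (u := u) (fun i => by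
    have := (c2.inv hδ).mul (hu i)
    rwa [inv_mul_cancel_left₀ hδ] at this) (s β)
    (List.ofFn fun i => List.replicate (α.1 i) (e i)).flatten).ne hs
  obtain ⟨-, a, z₀, hz₀, -⟩ := C.exists_pt (Classical.arbitrary E)
  obtain ⟨z, hz, ⟨hy, z1⟩, z2, z3, z4⟩ :=
    (gen_pt (g1.and (g2.and (hF.and (c2.ne hδ)))) (C.B14 hz₀) 1).exists
  obtain ⟨X, hX⟩ := z3 a z hz rfl
  have hs := (mem_pt hz).1 hy
  refine ⟨a, z, hz, _, hX.jets (F := fun α w => Dw P (List.ofFn fun i =>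
    List.replicate (α.1 i) (e i)).flatten (fun y => (c y)⁻¹ • V.F y) (C.pt 1 a w))
    (fun α => (mo_Dw hX hz hs z1 ?_ _).mono fun G ⟨w, w1, w2⟩ => ⟨w, w1.trans ?_, w2⟩) ?_⟩
  · refine (Mo.base (G := V.L a) (((an_pt hz).1 ((c1.1.an hy).inv z4)).mul
      (((P.s_an a z hz).fun_pow m).inv (pow_ne_zero _ hs)))
      (show V.L a ∈ Sj _ _ 0 from ⟨[], le_rfl, rfl⟩)).congr ?_
    filter_upwards [ev_s hz hs] with w hw
    rw [V.eq a w hw.1 hw.2, smul_smul]
    simp [hw.2]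
  · simpa [List.length_flatten, List.map_ofFn, List.sum_ofFn] using α.2
  · exact LinearIndependent.of_comp (LinearMap.pi fun β => (ev (s β) : J.H →ₗ[ℂ] ℂ))
      (Matrix.linearIndependent_rows_iff_isUnit.2 ((Matrix.isUnit_iff_isUnit_det _).2 z2.isUnit))

end Cb

open Cb

theorem stC_of (hB : StB) : StC := by
  intro n Γ E _ _ _ _ _ _ _ C P J m v hv
  have hg := sec_gf v
  obtain ⟨i₀, y₀, hy₀, h₀⟩ : ∃ i, ∃ y ∈ Eo P, v.F y i ≠ 0 := by
    obtain ⟨γ, a, z, hz, hs, -⟩ := Eo_cases (conn_Eo P).2.nonempty.some_mem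
    obtain ⟨i, hi⟩ := exists_ne (hv a z hz)
    exact ⟨i, _, (mem_pt (γ := 1) hz).2 hs, fun e => hi (by rw [v.eq a z hz hs]; simp [e])⟩
  have hb : NZ P fun y => v.F y i₀ := ⟨hg.r0 i₀, y₀, hy₀, h₀⟩
  have h0 : ∃ b, NZ P b := ⟨_, hb⟩
  choose φ hφ using fun i => (hg.r0 i).ex h0
  have hφ0 : φ ≠ 0 := fun e => (hφ i₀).ne_zero (hb.gen.mono fun _ h => h.2) (congrFun e i₀)
  obtain ⟨d, p, e, B, ρ, S, w, k, b1, -, b3, b4, b5, b6, b7⟩ := hB (K h0) n (DK h0) J.ι φ hφ0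
  obtain ⟨k, rfl⟩ : ∃ k', k = k' + 1 := ⟨k - 1, by omega⟩
  obtain _ | ρ := ρ
  · exact absurd (by simpa using b3) hφ0
  obtain ⟨δ, d1, d2, d3⟩ := exists_del (B := fun q : Fin d × Fin p => B q.1 q.2) fun g q => by
    simpa [leafVF, apply_ite (TK h0 g)] using b5 _ (finOn_T (DK h0) (leafVF e B q.1) (TK h0 g)
      (T_d g) (σ := fun i => g • i) (fun i => (((hφ _).T g).congr
        ((gen_Eo P).mono fun y hy => hg.2 g y hy i)).ext (hφ i)) b3 (b4 q.1)) q.2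
  have d4 : ∀ l j, IK (δ * leafVF e B l j) := fun l j => by
    obtain ⟨l' | k, rfl⟩ := e.surjective j
    · by_cases h : l' = l
      · simpa [leafVF, h] using d2
      · have : IK (0 : K h0) := ⟨_, .const 0, .zero⟩
        simpa [leafVF, h] using this
    · simpa [leafVF] using d3 (l, k)
  choose c c1 c2 c3 using fun t => exists_W d1 d2 d4 ⟨_, hg, hφ⟩ (S t)
  simp only [← b1] at c3
  obtain ⟨m', V, hV⟩ := exists_V (k := k) c3
  have e0 : ∀ j : Fin (ρ + 1) → J.ι, (Matrix.of fun t t' => c t * w t (j t')).det =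
      (∏ t, c t) * (Matrix.of fun t t' => w t (j t')).det := fun j =>
    Matrix.det_mul_column c (Matrix.of fun t t' => w t (j t'))
  simp only [e0, Finset.prod_mul_distrib] at hV
  set cc := ∏ _ : Fin (k + 1), ∏ t, c t
  have e1 : cc ≠ 0 := Finset.prod_ne_zero_iff.2 fun _ _ => Finset.prod_ne_zero_iff.2 fun t _ => c1 t
  have hF := fr_gen V hV e d1 d4 fun l => by
    choose A hA using fun t => (mem_span_range_iff_exists_fun _).1 (b4 l t)
    obtain ⟨μ, hμ⟩ := der_det (k + 1) (vfH (DK h0) (leafVF e B l)) (vf_mul _ _) w A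
      fun t i => (congrFun (hA t) i).symm.trans (by simp)
    refine ⟨δ * ((DK h0).vf (leafVF e B l) cc / cc + μ), fun i => ?_⟩
    rw [vf_mul, show (DK h0).vf _ (∏ _, _) = _ from hμ i]
    field_simp
  have hr := rank_of V (hF.mono fun y h a z hz e => (h a z hz e).imp fun _ h => ⟨_, h⟩)
  have hj := fun j => jets_of V e1 (.prod _ fun _ => .prod _ c2) hV _ hF j (b7 j)
  have hp : ∀ K : Set E, IsCompact K → K ⊆ V.E0 p → _ := fun K => proper_of v hv V
    fun j : Fin (k + 1) → Fin (ρ + 1) → J.ι => ⟨j 0, fun t i => update j 0 (update (j 0) t i), fun y hy i => by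
      have h1 := (hφ i).mul (hV j)
      rw [mul_left_comm, cramer_prod b3 j i, Finset.mul_sum] at h1
      simp only [mul_left_comm cc] at h1
      exact eq_of_gen (h1.eq (Rp.sum _ fun t => (hφ _).mul (hV _)))
        (AnalyticAt.mul ((hg.1.pl _).an hy) (((sec_gf V).1.pl _).an hy))
        (Finset.analyticAt_fun_sum _ fun t _ =>
          AnalyticAt.mul ((hg.1.pl _).an hy) (((sec_gf V).1.pl _).an hy))⟩
  refine ⟨_, m', V, p, Nat.pos_of_ne_zero ?_, hr, hj, hp⟩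
  rintro rfl
  obtain ⟨a, z, hz, ξ, h⟩ := hj 0
  exact not_zero V hz (by simpa [jet, dl] using h.ne_zero ⟨0, by simp⟩) (hr a) hp

end Vale.Agent.P284Z
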