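import Vale.Agent.P284Z.C.Gen

/-! P284Z, block C: rank, properness and positivity of the rank. -/

open scoped Topology
open Filter Set Function

noncomputable section

namespace Vale.Agent.P284Z.Cb

open Vale.Agent.P272.K Vale.Agent.P284.H661.Lim

variable {n : ℕ} {Γ E : Type} [Group Γ] [TopologicalSpace E] [MulAction Γ E] {C : Cov n Γ E}
  {P : Pol C} {J J' : IX Γ} {m m' p : ℕ} {a : C.I} {z : Cm n}

theorem gen_pt {Q : E → Prop} (h : ∀ᶠ y in gen E, Q y) (hz : z ∈ C.B 4 a) (γ : Γ) :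
    ∃ᶠ w in 𝓝 z, w ∈ C.B 4 a ∧ Q (C.pt γ a w) := by
  have h1 := gen_freq h (C.pt γ a z)
  rw [← C.map_pt' hz, frequently_map] at h1
  exact (h1.and_eventually ((C.isOpen_B 4 a).mem_nhds hz)).mono fun _ => And.symm

theorem rank_of (V : HSec P J m) {d : ℕ} (h : ∀ᶠ y in gen E, ∀ a, ∀ z ∈ C.B 4 a, y = C.pt 1 a z →
    ∃ (X : Fin d → Cm n → Cm n) (ξ : Fin p → Cm n), Fr (V.L a) z X ξ) (a : C.I) :
    ∀ z ∈ C.B 4 a, ∀ ξ : Fin (p + 1) → Cm n, ¬ V.Imm a z ξ := fun z hz ξ hi => by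
  have h1 : ContinuousAt (fun w => (Fin.cons (V.L a w) fun i => fderiv ℂ (V.L a) w (ξ i) :
      Fin (p + 1 + 1) → J.H)) z := continuousAt_pi.2 (Fin.cases (V.an a z hz).continuousAt
    fun i => (an_dv (η := fun _ => ξ i) (V.an a z hz) analyticAt_const).continuousAt)
  obtain ⟨w, ⟨w1, w2⟩, w3⟩ := ((gen_pt h hz 1).and_eventually
    (h1.eventually (isOpen_setOfPred_linearIndependent.mem_nhds hi))).exists
  obtain ⟨X, ξ', hF⟩ := w2 a w w1 rfl
  exact hF.rank ξ w3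

theorem proper_of (v : HSec P J m) (hv : ∀ a, ∀ z ∈ C.B 4 a, v.L a z ≠ 0) (V : HSec P J' m')
    {ρ : ℕ} (h : ∀ j : J'.ι, ∃ (s : Fin ρ → J.ι) (u : Fin ρ → J.ι → J'.ι), ∀ y ∈ Eo P, ∀ i,
      v.F y i * V.F y j = ∑ t, v.F y (s t) * V.F y (u t i))
    {K : Set E} (hK : IsCompact K) (hE : K ⊆ V.E0 p) : ∃ K' : Set E, IsCompact K' ∧
      ∀ y ∈ V.E0 p, ∀ y' ∈ K, V.Par y y' → y ∈ K' := by
  have c14 : ∀ a, C.cB 1 a ⊆ C.B 4 a := C.cB_sub_B (by norm_num)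
  have hA : IsCompact (⋃ a, v.L a '' C.cB 1 a) := isCompact_iUnion fun a =>
    (C.isCompact_cB 1 a).image_of_continuousOn ((v.an a).continuousOn.mono (c14 a))
  obtain ⟨c, hc, h1⟩ := low hA (by
    simp only [mem_iUnion]
    rintro _ ⟨a, z, hz, rfl⟩
    exact hv a z (c14 a hz))
  have h2 : ∃ T : Set Γ, T.Finite ∧ ∀ y' ∈ K, ∀ γ a, ∀ z ∈ C.B 1 a,
      V.Par (C.pt γ a z) y' → γ ∈ T := by
    refine hK.induction_on (p := fun S => ∃ T : Set Γ, T.Finite ∧ ∀ y' ∈ S, ∀ γ a, ∀ z ∈ C.B 1 a,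
      V.Par (C.pt γ a z) y' → γ ∈ T) ⟨∅, finite_empty, by simp⟩
      (fun s t e ⟨T, t1, t2⟩ => ⟨T, t1, fun y hy => t2 y (e hy)⟩)
      (fun s t ⟨T, t1, t2⟩ ⟨T', t3, t4⟩ => ⟨_, t1.union t3, fun y hy γ a z hz e => hy.imp
        (fun h => t2 y h γ a z hz e) fun h => t4 y h γ a z hz e⟩) fun y' hy' => ?_
    obtain ⟨g, b, z', hz', rfl, ξ, hi⟩ := hE hy'
    obtain ⟨j, hj⟩ := exists_ne (x := V.L b z') (hi.ne_zero 0)
    obtain ⟨s, u, hu⟩ := h (g • j)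
    have hj' : 0 < ‖V.val g b z' (g • j)‖ := by rwa [HSec.val, inv_smul_smul, norm_pos_iff]
    set ε := ‖V.val g b z' (g • j)‖ / 2
    set A := ‖V.L b z'‖ + 1
    have hA0 : 0 < A := by positivity
    have hε : 0 < ε := half_pos hj'
    have e1 : ∀ᶠ w in 𝓝 z', w ∈ C.B 4 b ∧ ε < ‖V.val g b w (g • j)‖ ∧ ‖V.L b w‖ < A :=
      Eventually.and ((C.isOpen_B 4 b).mem_nhds hz')
        (((val_cont V hz' _).norm.eventually (lt_mem_nhds (half_lt_self hj'))).and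
          ((V.an b z' hz').continuousAt.norm.eventually (gt_mem_nhds (lt_add_one _))))
    refine ⟨_, mem_nhdsWithin_of_mem_nhds (C.map_pt' hz' g ▸ image_mem_map e1), _,
      finite_iUnion fun t => (fin_coord hA (c := c * ε / ((ρ + 1) * A))
        (by positivity)).preimage (smul_inj (s t)).injOn, ?_⟩
    rintro _ ⟨w, ⟨w1, w2, w3⟩, rfl⟩ γ a z hz ⟨γ₁, a₁, z₁, hz₁, γ₂, a₂, z₂, hz₂, e₁, e₂, t, ht, e⟩
    have h4 := C.B14 hz
    obtain ⟨t₁, t1, t2⟩ := val_ch V h4 hz₁ e₁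
    obtain ⟨t₂, t3, t4⟩ := val_ch V hz₂ w1 e₂.symm
    have hz' : v.L a z ∈ ⋃ a, v.L a '' C.cB 1 a := mem_iUnion.2 ⟨a, z, C.B_sub_cB 1 a hz, rfl⟩
    obtain ⟨i, hi⟩ := h1 _ hz'
    have e2 : v.val γ a z (γ • i) * V.val γ a z (g • j) =
        ∑ t, v.val γ a z (s t) * V.val γ a z (u t (γ • i)) := by
      refine ext_s (P := P) h4 ((val_cont v h4 _).mul (val_cont V h4 _))
        (tendsto_finsetSum _ fun t _ => (val_cont v h4 _).mul (val_cont V h4 _))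
        (.of_forall fun w w1 w2 => ?_)
      simp only [Pi.mul_apply, val_eq _ w1 w2, mul_mul_mul_comm _ (v.F _ _),
        hu _ ((mem_pt w1).2 w2), Finset.mul_sum]
    simp only [t2, e, t4, ← mul_assoc t₁, ← mul_assoc (t₁ * t), mul_left_comm _ (t₁ * t * t₂),
      ← Finset.mul_sum] at e2
    have e3 := congrArg norm (mul_left_cancel₀ (mul_ne_zero (mul_ne_zero t1 ht) t3) e2)
    by_contra e4
    have e5 : ∀ t, ‖v.val γ a z (s t) * V.val g b w (u t (γ • i))‖ ≤ c * ε / (ρ + 1) := fun t => by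
      have e6 : ‖v.val γ a z (s t)‖ < c * ε / ((ρ + 1) * A) :=
        not_le.1 fun e7 => e4 (mem_iUnion.2 ⟨t, _, hz', e7⟩)
      rw [norm_mul]
      refine (mul_le_mul e6.le ((norm_apply_le _ _).trans w3.le) (norm_nonneg _)
        (by positivity)).trans (le_of_eq ?_)
      field_simp
    have e6 := (norm_sum_le _ _).trans (Finset.sum_le_sum fun t (_ : t ∈ Finset.univ) => e5 t)
    rw [← e3, norm_mul, HSec.val, inv_smul_smul, Finset.sum_const, Finset.card_fin, nsmul_eq_mul,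
      ← mul_div_assoc, le_div_iff₀ (by positivity)] at e6
    have e7 := mul_le_mul hi w2.le hε.le (norm_nonneg _)
    nlinarith [mul_pos hc hε, ρ.cast_nonneg (α := ℝ)]
  obtain ⟨T, t1, t2⟩ := h2
  refine ⟨_, t1.isCompact_biUnion fun γ _ => isCompact_iUnion fun a =>
    C.isCompact_image_pt γ (C.isCompact_cB 1 a) (c14 a), fun y _ y' hy' e => ?_⟩
  obtain ⟨γ, a, z, hz, rfl⟩ := C.exists_pt y
  exact mem_biUnion (t2 y' hy' γ a z hz e) (mem_iUnion.2 ⟨a, z, C.B_sub_cB 1 a hz, rfl⟩)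

theorem li_two {H : Type} [AddCommGroup H] [Module ℂ H] {x y : H} (hx : x ≠ 0)
    (h : ∀ c : ℂ, c • x ≠ y) : LinearIndependent ℂ (Fin.cons x fun _ => y : Fin (1 + 1) → H) := by
  rw [show (Fin.cons x fun _ => y : Fin (1 + 1) → H) = ![x, y] from
    funext fun i => by fin_cases i <;> rfl]
  exact (LinearIndependent.pair_iff' hx).2 h

theorem li_one {H : Type} [AddCommGroup H] [Module ℂ H] {x : H} (hx : x ≠ 0) (y : Fin 0 → H) :
    LinearIndependent ℂ (Fin.cons x y : Fin (0 + 1) → H) :=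
  (linearIndependent_unique_iff (ι := Fin 1)).2 hx

theorem par_all [ConnectedSpace E] (V : HSec P J m) (hz : z ∈ C.B 4 a) (hs : P.s a z ≠ 0)
    {i : J.ι} (hi : V.L a z i ≠ 0) (hr : ∀ z ∈ C.B 4 a, ∀ ξ : Fin 1 → Cm n, ¬ V.Imm a z ξ) :
    ∀ y ∈ Eo P, ∀ j, V.L a z i * V.F y j = V.F y i * V.L a z j := by
  have h0 : V.L a z ≠ 0 := fun e => hi (by rw [e]; rfl)
  have h1 := proj_const (V.an a z hz) (ev i) hi (by
    filter_upwards [(C.isOpen_B 4 a).mem_nhds hz, (V.an a z hz).continuousAt.eventually_ne h0]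
      with w w1 w2 ζ
    by_contra! h
    exact hr w w1 (fun _ => ζ) (li_two w2 h))
  intro y hy j
  have h3 : Pl P fun y => V.L a z i * V.F y j + V.F y i * -V.L a z j :=
    (Pl.smul (.const _) ((sec_gf V).1.pl j)).add (Pl.smul ((sec_gf V).1.pl i) (.const _))
  have h4 := eq_zero (fun y hy => h3.an hy) ((mem_pt (γ := 1) hz).2 hs) ((C.ev_pt hz 1).2 (by
    filter_upwards [h1, ev_s hz hs] with w w1 w2
    have w3 := congrArg (ev j) w1
    rw [V.eq a w w2.1 w2.2] at w3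
    simp only [map_smul, ev_apply, smul_eq_mul] at w3
    refine mul_left_cancel₀ (pow_ne_zero m w2.2) ?_
    linear_combination w3)) y hy
  linear_combination h4

theorem not_zero [ConnectedSpace E] [Infinite Γ] (V : HSec P J m) (hz : z ∈ C.B 4 a)
    (h0 : V.L a z ≠ 0) (hr : ∀ z ∈ C.B 4 a, ∀ ξ : Fin 1 → Cm n, ¬ V.Imm a z ξ)
    (hp : ∀ K : Set E, IsCompact K → K ⊆ V.E0 0 → ∃ K' : Set E, IsCompact K' ∧
      ∀ y ∈ V.E0 0, ∀ y' ∈ K, V.Par y y' → y ∈ K') : False := by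
  obtain ⟨z, ⟨hz, hy⟩, h0⟩ := ((gen_pt (gen_Eo P) hz 1).and_eventually
    ((V.an a z hz).continuousAt.eventually_ne h0)).exists
  have hs := (mem_pt hz).1 hy
  obtain ⟨i, hi⟩ := exists_ne h0
  have h2 := par_all V hz hs hi hr
  have h3 : ∀ γ, C.pt γ a z ∈ V.E0 0 := fun γ => ⟨γ, a, z, hz, rfl, 0, li_one h0 _⟩
  obtain ⟨K, k1, k2⟩ := hp _ isCompact_singleton (singleton_subset_iff.2 (h3 1))
  have h4 : ∀ γ, C.pt γ a z ∈ K := fun γ => by
    have e : ∀ j, V.L a z i * V.val γ a z j = V.val γ a z i * V.L a z j := fun j => by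
      simp only [val_eq V hz hs]
      linear_combination P.s a z ^ m * h2 _ ((mem_pt (γ := γ) hz).2 hs) j
    refine k2 _ (h3 γ) _ rfl ⟨γ, a, z, hz, 1, a, z, hz, rfl, rfl, V.val γ a z i / V.L a z i,
      div_ne_zero (fun e1 => ?_) hi, fun j => ?_⟩
    · have := e (γ • i)
      rw [e1, zero_mul, HSec.val, inv_smul_smul] at this
      exact hi (mul_self_eq_zero.1 this)
    · rw [div_mul_eq_mul_div, eq_div_iff hi, mul_comm, e, HSec.val.eq_1 V 1, inv_one, one_smul]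
  exact infinite_univ ((C.proper K k1).subset fun γ _ => ⟨_, h4 1, by rw [← C.pt_eq]; exact h4 γ⟩)

end Vale.Agent.P284Z.Cb
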